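import Vale.Agent.P202.Mixed.Slice.Partial

/-!
# P202 mixed characteristic: augmented resolutions under an extension of fields

Coordinates over a basis of the larger field reduce exactness to the smaller field.
-/

noncomputable section

namespace Vale.Agent.P202.Mixed.Slice

open Finset Segre

universe u₀ u

variable {k₀ : Type u₀} [Field k₀] {k : Type u} [Field k] {n : ℕ} {c : Fin n → ℤ}
  {G : FreeCx (MvPolynomial (Fin (n + 1)) k₀)} {deg : G.ι → ℤ} {w : G.ι → Lau k₀ n}

/-- Augmented resolutions stay such under an extension of fields. -/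
theorem IsAugRes.baseChange (hG : IsAugRes c G deg w) (ψ : k₀ →+* k) :
    IsAugRes c (G.map (MvPolynomial.map ψ)) deg (fun g => mapLau ψ n (w g)) := by
  classical
  refine ⟨fun h g => map_mem_homInt ψ (hG.homog h g), fun g => mapLau_mem_sec ψ (hG.w_mem g),
    fun g hg => by show mapLau ψ n (w g) = 0; rw [hG.w_zero g hg, map_zero], fun g => ?_, ?_, ?_⟩
  · show ∑ h, aev k n (MvPolynomial.map ψ (G.mat h g)) * mapLau ψ n (w h) = 0
    simp only [← mapLau_aev, ← map_mul, ← map_sum, hG.aug_d g, map_zero]
  · intro t i (z : G.ι → MvPolynomial (Fin (n + 1)) k) hz hi hd ha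
    let _ : Algebra k₀ k := ψ.toAlgebra
    let b := Module.Basis.ofVectorSpace k₀ k
    let E : Finset (Module.Basis.ofVectorSpaceIndex k₀ k) :=
      univ.biUnion fun g : G.ι =>
        (z g).support.biUnion fun s => (b.repr (MvPolynomial.coeff s (z g))).support
    let ze : Module.Basis.ofVectorSpaceIndex k₀ k → G.ι → MvPolynomial (Fin (n + 1)) k₀ :=
      fun e g => ∑ s ∈ (z g).support, MvPolynomial.monomial s (b.repr (MvPolynomial.coeff s (z g)) e)
    have hze : ∀ e g s, MvPolynomial.coeff s (ze e g) = b.repr (MvPolynomial.coeff s (z g)) e := by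
      intro e g s
      simp only [ze, MvPolynomial.coeff_sum, MvPolynomial.coeff_monomial, Finset.sum_ite_eq']
      split_ifs with h
      · rfl
      · rw [MvPolynomial.notMem_support_iff.1 h, map_zero]
        rfl
    have hdec : ∀ g, z g = ∑ e ∈ E, MvPolynomial.C (b e) * MvPolynomial.map ψ (ze e g) := by
      intro g
      refine MvPolynomial.ext _ _ fun s => ?_
      simp only [MvPolynomial.coeff_sum, MvPolynomial.coeff_C_mul, MvPolynomial.coeff_map, hze]
      conv_lhs => rw [← b.linearCombination_repr (MvPolynomial.coeff s (z g))]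
      rw [Finsupp.linearCombination_apply, Finsupp.sum_of_support_subset _ ?_ _ (by simp)]
      · exact Finset.sum_congr rfl fun e _ => (Algebra.smul_def _ _).trans (mul_comm _ _)
      · intro e he
        by_cases hs : s ∈ (z g).support
        · exact Finset.mem_biUnion.2 ⟨g, mem_univ _, Finset.mem_biUnion.2 ⟨s, hs, he⟩⟩
        · rw [MvPolynomial.notMem_support_iff.1 hs, map_zero] at he
          simp at he
    have hind : ∀ v : Module.Basis.ofVectorSpaceIndex k₀ k → k₀,
        ∑ e ∈ E, b e * ψ (v e) = 0 → ∀ e ∈ E, v e = 0 := by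
      intro v hv e he
      refine linearIndependent_iff'.1 b.linearIndependent E v ?_ e he
      rw [← hv]
      exact Finset.sum_congr rfl fun e _ => (Algebra.smul_def _ _).trans (mul_comm _ _)
    have hcyc : ∀ e ∈ E, G.dA (MvPolynomial (Fin (n + 1)) k₀) (ze e) = 0 := by
      intro e he
      funext h
      refine MvPolynomial.ext _ _ fun s => ?_
      refine hind (fun e => MvPolynomial.coeff s (G.dA (MvPolynomial (Fin (n + 1)) k₀) (ze e) h))
        ?_ e he
      have h1 : ∑ g, MvPolynomial.map ψ (G.mat h g) * z g = 0 := congrFun hd h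
      simp only [hdec, Finset.mul_sum, mul_left_comm _ (MvPolynomial.C _), ← map_mul] at h1
      rw [Finset.sum_comm] at h1
      simp only [← Finset.mul_sum, ← map_sum] at h1
      have h2 := congrArg (MvPolynomial.coeff s) h1
      simp only [MvPolynomial.coeff_sum, MvPolynomial.coeff_C_mul, MvPolynomial.coeff_map,
        MvPolynomial.coeff_zero] at h2
      simpa only [FreeCx.dA_apply, smul_eq_mul, MvPolynomial.coeff_sum] using h2
    have haug : ∀ e ∈ E, augL w (ze e) = 0 := by
      intro e he
      refine AddMonoidAlgebra.ext (Finsupp.ext fun α => ?_)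
      refine hind (fun e => (augL w (ze e)).coeff α) ?_ e he
      have h1 : ∑ g, aev k n (z g) * mapLau ψ n (w g) = 0 := (augL_apply _ z).symm.trans ha
      simp only [hdec, map_sum, map_mul, ← mapLau_aev, Finset.sum_mul, mul_assoc] at h1
      rw [Finset.sum_comm] at h1
      simp only [← map_mul, ← Finset.mul_sum, ← map_sum, ← augL_apply] at h1
      rw [aev] at h1
      simp only [MvPolynomial.aeval_C, ← Algebra.smul_def] at h1
      have h2 := congrArg (fun f : Lau k n => f.coeff α) h1
      simpa [coeff_mapLau] using h2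
    have hpiece : ∀ e, ze e ∈ degPiece k₀ deg t := fun e => mem_degPiece.2 fun g => by
      rw [mem_homInt_iff]
      intro s hs
      rw [hze] at hs
      exact mem_homInt_iff.1 (mem_degPiece.1 hz g) s fun h0 => hs (by rw [h0, map_zero]; rfl)
    have hsupp : ∀ e, ze e ∈ (G.diff (MvPolynomial (Fin (n + 1)) k₀) k₀).deg i := fun e g hg => by
      have h0 : z g = 0 := hi g hg
      refine MvPolynomial.ext _ _ fun s => ?_
      rw [hze, h0]
      simp
    choose! y hy1 hy2 hy3 using fun e (he : e ∈ E) =>
      hG.exact t i (ze e) (hpiece e) (hsupp e) (hcyc e he) (haug e he)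
    refine ⟨fun g => ∑ e ∈ E, MvPolynomial.C (b e) * MvPolynomial.map ψ (y e g),
      mem_degPiece.2 fun g => Submodule.sum_mem _ fun e he => ?_, fun g hg => ?_, funext fun h => ?_⟩
    · have := homInt_mul (C_mem_homInt (b e)) (map_mem_homInt ψ (mem_degPiece.1 (hy1 e he) g))
      rwa [zero_add] at this
    · refine Finset.sum_eq_zero fun e he => ?_
      rw [show y e g = 0 from hy2 e he g hg, map_zero, mul_zero]
    · show ∑ g, MvPolynomial.map ψ (G.mat h g) *
        (∑ e ∈ E, MvPolynomial.C (b e) * MvPolynomial.map ψ (y e g)) = z h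
      simp only [Finset.mul_sum, mul_left_comm _ (MvPolynomial.C _), ← map_mul]
      rw [Finset.sum_comm, hdec h]
      simp only [← Finset.mul_sum, ← map_sum]
      refine Finset.sum_congr rfl fun e he => ?_
      refine congrArg (MvPolynomial.C (b e) * ·) ?_
      rw [← congrFun (hy3 e he) h, map_sum]
      exact (map_sum _ _ _).symm.trans (congrArg _ (FreeCx.dA_apply _ _ _ _).symm) |>.trans rfl
  · intro t x hx
    suffices hsub : sec k c t ≤ (degPiece k deg t ⊓
        ((G.map (MvPolynomial.map ψ)).diff (MvPolynomial (Fin (n + 1)) k) k).deg 0).map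
          (augL (ι := G.ι) fun g => mapLau ψ n (w g)) by
      obtain ⟨z, ⟨h1, h2⟩, h3⟩ := hsub hx
      exact ⟨z, h1, h2, h3⟩
    refine sec_le_of_single _ fun α hα a => ?_
    obtain ⟨z, hz, hz0, hza⟩ := hG.surj t _ (single_mem_sec hα (1 : k₀))
    refine ⟨fun g => MvPolynomial.C a * MvPolynomial.map ψ (z g),
      ⟨mem_degPiece.2 fun g => ?_, fun g hg => ?_⟩, ?_⟩
    · have := homInt_mul (C_mem_homInt a) (map_mem_homInt ψ (mem_degPiece.1 hz g))
      rwa [zero_add] at this
    · show MvPolynomial.C a * MvPolynomial.map ψ (z g) = 0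
      rw [show z g = 0 from hz0 g hg, map_zero, mul_zero]
    · rw [augL_apply] at hza ⊢
      simp only [map_mul, ← mapLau_aev, mul_assoc]
      simp only [← map_mul, ← Finset.mul_sum, ← map_sum, hza, mapLau_single, map_one]
      rw [aev, MvPolynomial.aeval_C, ← Algebra.smul_def, AddMonoidAlgebra.smul_single, smul_eq_mul,
        mul_one]

end Vale.Agent.P202.Mixed.Slice
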