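import Vale.Agent.P202.Mixed.Slice.Sections

/-!
# P202 mixed characteristic: the graded syzygy theorem

In a graded complex of free modules over polynomials in `d` variables over a field, exact in the
positions strictly between `0` and `L ≥ d`, the cycles of position `L` have a homogeneous basis.
The induction sets the first variable to `0`: the cycles are saturated for it, so a basis of
their reductions lifts, and the reductions are cycles of a shifted complex.
-/

noncomputable section

namespace Vale.Agent.P202.Mixed.Slice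

open MvPolynomial

universe u

namespace Syz

variable {k : Type u} [Field k] {d : ℕ}

theorem mem_piece {ι : Type} {deg : ι → ℤ} {t : ℤ} {f : ι → (MvPolynomial (Fin d) k)} :
    f ∈ degPiece k deg t ↔ ∀ g, f g ∈ homInt k d (t - deg g) := by
  simp [degPiece, Submodule.mem_pi]

theorem smul_mem_piece {ι : Type} {deg : ι → ℤ} {t e : ℤ} {q : (MvPolynomial (Fin d) k)} (hq : q ∈ homInt k d e)
    {f : ι → (MvPolynomial (Fin d) k)} (hf : f ∈ degPiece k deg t) : q • f ∈ degPiece k deg (t + e) := by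
  rw [mem_piece] at hf ⊢
  intro g
  rw [show t + e - deg g = e + (t - deg g) by ring, Pi.smul_apply, smul_eq_mul]
  exact homInt_mul hq (hf g)

/-- A family of subspaces has a homogeneous basis over the polynomials. -/
def HasBasis {ι : Type} (K : ℤ → Submodule k (ι → (MvPolynomial (Fin d) k))) : Prop :=
  ∃ (κ : Type) (_ : Fintype κ) (τ : κ → ℤ) (b : κ → ι → (MvPolynomial (Fin d) k)),
    (∀ i, b i ∈ K (τ i)) ∧
    (∀ t, ∀ z ∈ K t, ∃ q : κ → (MvPolynomial (Fin d) k), (∀ i, q i ∈ homInt k d (t - τ i)) ∧ z = ∑ i, q i • b i) ∧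
    ∀ t (q : κ → (MvPolynomial (Fin d) k)), (∀ i, q i ∈ homInt k d (t - τ i)) → ∑ i, q i • b i = 0 → q = 0

/-! ### Setting the first variable to zero -/

/-- The first variable set to zero. -/
def red : (MvPolynomial (Fin (d + 1)) k) →ₐ[k] (MvPolynomial (Fin d) k) := aeval (Fin.cases 0 MvPolynomial.X)

/-- The section of `red`. -/
def sect : (MvPolynomial (Fin d) k) →ₐ[k] (MvPolynomial (Fin (d + 1)) k) := rename Fin.succ

theorem red_X0 : red (X 0 : (MvPolynomial (Fin (d + 1)) k)) = 0 := by simp [red]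

theorem red_sect (q : (MvPolynomial (Fin d) k)) : red (sect q) = q := by
  have : (red (k := k) (d := d)).comp sect = AlgHom.id k _ := algHom_ext fun i => by
    simp [red, sect]
  exact DFunLike.congr_fun this q

theorem red_mem {e : ℤ} {q : (MvPolynomial (Fin (d + 1)) k)} (hq : q ∈ homInt k (d + 1) e) :
    red q ∈ homInt k d e := by
  unfold homInt at hq ⊢
  split_ifs at hq ⊢ with he
  · rw [mem_homogeneousSubmodule] at hq ⊢
    simpa [red] using hq.aeval (Fin.cases (0 : (MvPolynomial (Fin d) k)) MvPolynomial.X) (n := 1) fun i =>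
      Fin.cases (isHomogeneous_zero _ _ _) (fun j => isHomogeneous_X k j) i
  · rw [Submodule.mem_bot] at hq ⊢
    rw [hq, map_zero]

theorem sect_mem {e : ℤ} {q : (MvPolynomial (Fin d) k)} (hq : q ∈ homInt k d e) : sect q ∈ homInt k (d + 1) e := by
  unfold homInt at hq ⊢
  split_ifs at hq ⊢ with he
  · rw [mem_homogeneousSubmodule] at hq ⊢
    exact hq.rename_isHomogeneous
  · rw [Submodule.mem_bot] at hq ⊢
    rw [hq, map_zero]

theorem X0_dvd_sub (q : (MvPolynomial (Fin (d + 1)) k)) : (X 0 : (MvPolynomial (Fin (d + 1)) k)) ∣ q - sect (red q) := by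
  induction q using MvPolynomial.induction_on with
  | C a => simp [red, sect]
  | add p q hp hq =>
    rw [map_add, map_add, add_sub_add_comm]
    exact dvd_add hp hq
  | mul_X p i hp =>
    rw [map_mul, map_mul]
    refine Fin.cases ?_ (fun j => ?_) i
    · rw [red_X0, map_zero, mul_zero, sub_zero]
      exact dvd_mul_left _ _
    · rw [show sect (red (X j.succ : (MvPolynomial (Fin (d + 1)) k))) = X j.succ by simp [red, sect], ← sub_mul]
      exact dvd_mul_of_dvd_left hp _

theorem exists_X0_mul {e : ℤ} {q : (MvPolynomial (Fin (d + 1)) k)} (hq : q ∈ homInt k (d + 1) e) (h0 : red q = 0) :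
    ∃ u ∈ homInt k (d + 1) (e - 1), q = u * X 0 := by
  obtain ⟨v, hv⟩ := X0_dvd_sub q
  rw [h0, map_zero, sub_zero, mul_comm] at hv
  refine ⟨compInt k (d + 1) (e - 1) v, compInt_mem _ _, ?_⟩
  rw [← compInt_mul v (X_mem_homInt 0), ← hv, compInt_eq_self hq]

/-- Coordinatewise reduction. -/
def redV {ι : Type} : (ι → (MvPolynomial (Fin (d + 1)) k)) →ₗ[k] (ι → (MvPolynomial (Fin d) k)) := red.toLinearMap.compLeft ι

theorem redV_apply {ι : Type} (f : ι → (MvPolynomial (Fin (d + 1)) k)) (g : ι) : redV f g = red (f g) := rfl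

theorem redV_mem {ι : Type} {deg : ι → ℤ} {t : ℤ} {f : ι → (MvPolynomial (Fin (d + 1)) k)}
    (hf : f ∈ degPiece k deg t) : redV f ∈ degPiece k deg t := by
  rw [mem_piece] at hf ⊢
  exact fun g => red_mem (hf g)

theorem redV_smul {ι : Type} (q : (MvPolynomial (Fin (d + 1)) k)) (f : ι → (MvPolynomial (Fin (d + 1)) k)) :
    redV (q • f) = red q • redV f := _root_.funext fun g => by simp [redV_apply]

theorem exists_X0_smul {ι : Type} {deg : ι → ℤ} {t : ℤ} {f : ι → (MvPolynomial (Fin (d + 1)) k)}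
    (hf : f ∈ degPiece k deg t) (h0 : redV f = 0) :
    ∃ u ∈ degPiece k deg (t - 1), f = (X 0 : (MvPolynomial (Fin (d + 1)) k)) • u := by
  rw [mem_piece] at hf
  choose u hu hfu using fun g => exists_X0_mul (hf g) (congrFun h0 g)
  refine ⟨u, mem_piece.2 fun g => ?_, _root_.funext fun g => by
    rw [Pi.smul_apply, smul_eq_mul, mul_comm]; exact hfu g⟩
  rw [show t - 1 - deg g = t - deg g - 1 by ring]
  exact hu g

theorem X0_smul_cancel {ι : Type} {f f' : ι → (MvPolynomial (Fin (d + 1)) k)}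
    (h : (X 0 : (MvPolynomial (Fin (d + 1)) k)) • f = (X 0 : (MvPolynomial (Fin (d + 1)) k)) • f') : f = f' :=
  _root_.funext fun g => by
    have h1 := congrFun h g
    rw [Pi.smul_apply, Pi.smul_apply, smul_eq_mul, smul_eq_mul] at h1
    exact mul_left_cancel₀ (MvPolynomial.X_ne_zero (0 : Fin (d + 1))) h1

theorem exists_lower {ι : Type} [Finite ι] (deg : ι → ℤ) : ∃ m : ℤ, ∀ g, m < deg g := by
  obtain ⟨m, hm⟩ := (Set.finite_range deg).bddBelow
  exact ⟨m - 1, fun g => by have := hm (Set.mem_range_self g); omega⟩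

theorem piece_eq_zero {ι : Type} {deg : ι → ℤ} {m t : ℤ} (hm : ∀ g, m < deg g) (ht : t ≤ m)
    {f : ι → (MvPolynomial (Fin d) k)} (hf : f ∈ degPiece k deg t) : f = 0 := by
  funext g
  have := mem_piece.1 hf g
  rwa [homInt_neg (by have := hm g; omega), Submodule.mem_bot] at this

/-- A saturated family whose reductions have a basis has a basis. -/
theorem hasBasis_lift {ι : Type} [Finite ι] {deg : ι → ℤ}
    (K : ℤ → Submodule k (ι → (MvPolynomial (Fin (d + 1)) k))) (hK : ∀ t, K t ≤ degPiece k deg t)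
    (hmul : ∀ (t e : ℤ) (q : (MvPolynomial (Fin (d + 1)) k)), q ∈ homInt k (d + 1) e → ∀ f ∈ K t, q • f ∈ K (t + e))
    (hsat : ∀ t, ∀ u ∈ degPiece k deg (t - 1), (X 0 : (MvPolynomial (Fin (d + 1)) k)) • u ∈ K t → u ∈ K (t - 1))
    (h : HasBasis fun t => (K t).map redV) : HasBasis K := by
  classical
  obtain ⟨κ, _, τ, b', hb', hspan, hind⟩ := h
  choose b hb hbb' using fun i => Submodule.mem_map.1 (hb' i)
  have hsum : ∀ q : κ → (MvPolynomial (Fin (d + 1)) k), redV (∑ i, q i • b i) = ∑ i, red (q i) • b' i := fun q => by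
    simp only [map_sum, redV_smul, hbb']
  refine ⟨κ, inferInstance, τ, b, hb, ?_, ?_⟩
  · obtain ⟨m, hm⟩ := exists_lower deg
    suffices h : ∀ N : ℕ, ∀ t, t ≤ m + N → ∀ z ∈ K t, ∃ q : κ → (MvPolynomial (Fin (d + 1)) k),
        (∀ i, q i ∈ homInt k (d + 1) (t - τ i)) ∧ z = ∑ i, q i • b i from
      fun t z hz => h (t - m).toNat t (by omega) z hz
    intro N
    induction N with
    | zero => exact fun t ht z hz => ⟨0, fun i => zero_mem _,
        by simp [piece_eq_zero hm (by simpa using ht) (hK t hz)]⟩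
    | succ N ih =>
      intro t ht z hz
      obtain ⟨q, hq, hzq⟩ := hspan t (redV z) (Submodule.mem_map_of_mem hz)
      have hz' : z - ∑ i, sect (q i) • b i ∈ K t :=
        sub_mem hz (sum_mem fun i _ => by
          simpa using hmul (τ i) (t - τ i) _ (sect_mem (hq i)) (b i) (hb i))
      have h0 : redV (z - ∑ i, sect (q i) • b i) = 0 := by
        rw [map_sub, hsum, hzq]
        simp only [red_sect, sub_self]
      obtain ⟨u, hu, hzu⟩ := exists_X0_smul (hK t hz') h0
      obtain ⟨q', hq', rfl⟩ := ih (t - 1) (by push_cast at ht; omega) u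
        (hsat t u hu (hzu ▸ hz'))
      refine ⟨fun i => sect (q i) + X 0 * q' i, fun i => add_mem (sect_mem (hq i)) ?_, ?_⟩
      · rw [show t - τ i = 1 + (t - 1 - τ i) by ring]
        exact homInt_mul (X_mem_homInt 0) (hq' i)
      · rw [sub_eq_iff_eq_add'] at hzu
        simp only [add_smul, mul_smul, Finset.sum_add_distrib, ← Finset.smul_sum]
        exact hzu
  · obtain ⟨m, hm⟩ := exists_lower τ
    suffices h : ∀ N : ℕ, ∀ t, t ≤ m + N → ∀ q : κ → (MvPolynomial (Fin (d + 1)) k),
        (∀ i, q i ∈ homInt k (d + 1) (t - τ i)) → ∑ i, q i • b i = 0 → q = 0 from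
      fun t q hq hq0 => h (t - m).toNat t (by omega) q hq hq0
    intro N
    induction N with
    | zero => exact fun t ht q hq _ =>
        piece_eq_zero (deg := τ) hm (by simpa using ht) (mem_piece.2 hq)
    | succ N ih =>
      intro t ht q hq hq0
      have h1 := hind t (fun i => red (q i)) (fun i => red_mem (hq i)) (by rw [← hsum, hq0, map_zero])
      obtain ⟨u, hu, hqu⟩ := exists_X0_smul (deg := τ) (mem_piece.2 hq) h1
      have : u = 0 := ih (t - 1) (by push_cast at ht; omega) u (mem_piece.1 hu) (X0_smul_cancel (by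
        rw [smul_zero, Finset.smul_sum, ← hq0, hqu]
        simp [mul_smul]))
      rw [hqu, this, smul_zero]

/-- Over no variables every family has a basis. -/
theorem hasBasis_zero {ι : Type} [Fintype ι] {deg : ι → ℤ} (K : ℤ → Submodule k (ι → (MvPolynomial (Fin 0) k)))
    (hK : ∀ t, K t ≤ degPiece k deg t) : HasBasis K := by
  classical
  have hfin : Module.Finite k (MvPolynomial (Fin 0) k) := Module.Finite.equiv (isEmptyAlgEquiv k (Fin 0)).symm.toLinearEquiv
  have hC : ∀ q : (MvPolynomial (Fin 0) k), q = C (constantCoeff q) := fun q => by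
    simpa [constantCoeff_eq] using eq_C_of_isEmpty q
  have hzero : ∀ {e : ℤ}, e ≠ 0 → ∀ {q : (MvPolynomial (Fin 0) k)}, q ∈ homInt k 0 e → q = 0 := fun he q hq =>
    MvPolynomial.ext _ _ fun s => by
      rw [coeff_zero]
      by_contra hne
      have := mem_homInt_iff.1 hq s hne
      rw [Subsingleton.elim s 0] at this
      simp at this
      omega
  let T : Finset ℤ := Finset.univ.image deg
  let B := fun t : T => Module.finBasis k (K (t : ℤ))
  refine ⟨Σ t : T, Fin (Module.finrank k (K (t : ℤ))), inferInstance, fun i => (i.1 : ℤ),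
    fun i => (B i.1 i.2 : ι → (MvPolynomial (Fin 0) k)), fun i => (B i.1 i.2).2, ?_, ?_⟩
  · intro t z hz
    by_cases ht : t ∈ T
    · refine ⟨fun i => if h : i.1 = ⟨t, ht⟩ then
        C ((B ⟨t, ht⟩).repr ⟨z, hz⟩ (h ▸ i.2)) else 0, fun i => ?_, ?_⟩
      · dsimp only
        split_ifs with h
        · rw [show (i.1 : ℤ) = t from congrArg Subtype.val h, sub_self]; exact C_mem_homInt _
        · exact zero_mem _
      · rw [Fintype.sum_sigma, Finset.sum_eq_single ⟨t, ht⟩ (fun s _ hs => by simp [hs]) (by simp)]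
        simp only [dite_true, ← algebraMap_eq, algebraMap_smul]
        have e := congrArg Subtype.val ((B ⟨t, ht⟩).sum_repr ⟨z, hz⟩)
        simp only [Submodule.coe_sum, Submodule.coe_smul] at e
        exact e.symm
    · refine ⟨0, fun i => zero_mem _, ?_⟩
      simp only [Pi.zero_apply, zero_smul, Finset.sum_const_zero]
      funext g
      refine hzero (e := t - deg g) (fun h => ht ?_) (mem_piece.1 (hK t hz) g)
      exact Finset.mem_image.2 ⟨g, Finset.mem_univ _, by omega⟩
  · intro t q hq hq0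
    funext i
    by_cases hi : (i.1 : ℤ) = t
    · rw [Fintype.sum_sigma, Finset.sum_eq_single i.1 (fun s _ hs => Finset.sum_eq_zero fun j _ => by
          rw [hzero (fun h => hs (Subtype.ext (show (s : ℤ) = (i.1 : ℤ) by dsimp only at h hi; omega))) (hq ⟨s, j⟩),
            zero_smul]) (by simp)] at hq0
      have h1 := Fintype.linearIndependent_iff.1 (B i.1).linearIndependent
        (fun j => constantCoeff (q ⟨i.1, j⟩)) (Subtype.ext (by
          simp only [Submodule.coe_sum, Submodule.coe_smul, ZeroMemClass.coe_zero]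
          refine (Finset.sum_congr rfl fun j _ => ?_).trans hq0
          rw [hC (q ⟨i.1, j⟩), ← algebraMap_eq, algebraMap_smul]
          simp)) i.2
      rw [hC (q i), show constantCoeff (q i) = 0 from h1, map_zero]
      rfl
    · exact hzero (by dsimp only; omega) (hq i)

/-! ### Cycles -/

section Cycles

variable (G : FreeCx (MvPolynomial (Fin d) k)) (deg : G.ι → ℤ)

/-- Vectors supported in a position. -/
def supp (i : ℕ) : Submodule k (G.ι → (MvPolynomial (Fin d) k)) :=
  Submodule.pi {g : G.ι | G.pos g ≠ i} fun _ => (⊥ : Submodule k (MvPolynomial (Fin d) k))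

theorem mem_supp {i : ℕ} {f : G.ι → (MvPolynomial (Fin d) k)} : f ∈ supp G i ↔ ∀ g, G.pos g ≠ i → f g = 0 := by
  simp [supp, Submodule.mem_pi]

/-- The cycles of a position in one degree. -/
def cyc (i : ℕ) (t : ℤ) : Submodule k (G.ι → (MvPolynomial (Fin d) k)) :=
  degPiece k deg t ⊓ supp G i ⊓ LinearMap.ker ((G.dA (MvPolynomial (Fin d) k)).restrictScalars k)

theorem mem_cyc {i : ℕ} {t : ℤ} {f : G.ι → (MvPolynomial (Fin d) k)} :
    f ∈ cyc G deg i t ↔ f ∈ degPiece k deg t ∧ (∀ g, G.pos g ≠ i → f g = 0) ∧ G.dA (MvPolynomial (Fin d) k) f = 0 := by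
  simp [cyc, mem_supp, and_assoc]

variable {G deg}

theorem dA_mem_piece (homog : ∀ h g, G.mat h g ∈ homInt k d (deg g - deg h)) {t : ℤ}
    {f : G.ι → (MvPolynomial (Fin d) k)} (hf : f ∈ degPiece k deg t) : G.dA (MvPolynomial (Fin d) k) f ∈ degPiece k deg t := by
  rw [mem_piece] at hf ⊢
  intro h
  rw [FreeCx.dA_apply]
  refine sum_mem fun g _ => ?_
  rw [show t - deg h = (deg g - deg h) + (t - deg g) by ring]
  exact homInt_mul (homog h g) (hf g)

theorem dA_supp {i : ℕ} {f : G.ι → (MvPolynomial (Fin d) k)} (hf : ∀ g, G.pos g ≠ i + 1 → f g = 0) :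
    ∀ g, G.pos g ≠ i → G.dA (MvPolynomial (Fin d) k) f g = 0 := by
  intro h hh
  rw [FreeCx.dA_apply]
  refine Finset.sum_eq_zero fun g _ => ?_
  by_cases hm : G.mat h g = 0
  · rw [hm, zero_smul]
  · rw [hf g (by have := G.mat_pos h g hm; omega), smul_zero]

end Cycles

section Reduced

variable (G : FreeCx (MvPolynomial (Fin (d + 1)) k)) (deg : G.ι → ℤ)

/-- The reduced complex, shifted down by one position. -/
abbrev redCx : FreeCx (MvPolynomial (Fin d) k) where
  ι := G.ι
  pos g := G.pos g - 1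
  mat := Matrix.of fun h g => if G.pos h = 0 then 0 else red (G.mat h g)
  mat_pos h g hne := by
    rw [Matrix.of_apply] at hne
    split_ifs at hne with h0
    · exact absurd rfl hne
    · have := G.mat_pos h g fun e => hne (by rw [e, map_zero])
      omega
  sq := by
    refine Matrix.ext fun h g => ?_
    simp only [Matrix.mul_apply, Matrix.zero_apply, Matrix.of_apply]
    by_cases h0 : G.pos h = 0
    · simp [h0]
    · have hs := congrArg red (congrFun (congrFun G.sq h) g)
      rw [Matrix.mul_apply, map_sum, Matrix.zero_apply, map_zero] at hs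
      refine (Finset.sum_congr rfl fun l _ => ?_).trans hs
      rw [if_neg h0, map_mul]
      by_cases hl : G.pos l = 0
      · have hm : G.mat h l = 0 := by
          by_contra hm
          have := G.mat_pos h l hm
          omega
        simp [hm]
      · rw [if_neg hl]

theorem redCx_dA {i : ℕ} (hi : 1 ≤ i) {f : G.ι → (MvPolynomial (Fin (d + 1)) k)}
    (hf : ∀ g, G.pos g ≠ i + 1 → f g = 0) :
    (redCx G).dA (MvPolynomial (Fin d) k) (redV f) = redV (G.dA (MvPolynomial (Fin (d + 1)) k) f) := by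
  funext h
  show ∑ g : G.ι, (if G.pos h = 0 then 0 else red (G.mat h g)) * red (f g) =
    red (∑ g : G.ι, G.mat h g * f g)
  rw [map_sum]
  refine Finset.sum_congr rfl fun g _ => ?_
  rw [map_mul]
  split_ifs with h0
  · by_cases hm : G.mat h g = 0
    · simp [hm]
    · rw [hf g (by have := G.mat_pos h g hm; omega), map_zero, mul_zero, mul_zero]
  · rfl

variable {G deg} {L : ℕ} (homog : ∀ h g, G.mat h g ∈ homInt k (d + 1) (deg g - deg h))
  (exact : ∀ t (i : ℕ), 1 ≤ i → i < L → ∀ z ∈ degPiece k deg t,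
    (∀ g, G.pos g ≠ i → z g = 0) → G.dA (MvPolynomial (Fin (d + 1)) k) z = 0 →
      ∃ y ∈ degPiece k deg t, (∀ g, G.pos g ≠ i + 1 → y g = 0) ∧ G.dA (MvPolynomial (Fin (d + 1)) k) y = z)

include homog exact in
theorem exists_cycle_lift {t : ℤ} {i : ℕ} (hi : 1 ≤ i) (hiL : i < L)
    {z : G.ι → (MvPolynomial (Fin d) k)} (hz : z ∈ cyc (redCx G) deg i t) :
    ∃ y ∈ cyc G deg (i + 1) t, redV y = z := by
  obtain ⟨hz1, hz2, hz3⟩ := (mem_cyc (redCx G) deg).1 hz
  let y₀ : G.ι → (MvPolynomial (Fin (d + 1)) k) := fun g => sect (z g)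
  have hy0 : redV y₀ = z := _root_.funext fun g => red_sect _
  have hy1 : y₀ ∈ degPiece k deg t := mem_piece.2 fun g => sect_mem (mem_piece.1 hz1 g)
  have hy2 : ∀ g, G.pos g ≠ i + 1 → y₀ g = 0 := fun g hg => by
    simp only [y₀]
    rw [hz2 g (show G.pos g - 1 ≠ i by omega), map_zero]
  have h0 : redV (G.dA (MvPolynomial (Fin (d + 1)) k) y₀) = 0 := by rw [← redCx_dA G hi hy2, hy0, hz3]
  obtain ⟨u, hu, hdu⟩ := exists_X0_smul (dA_mem_piece homog hy1) h0
  have hu2 : ∀ g, G.pos g ≠ i → u g = 0 := fun g hg => by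
    have := dA_supp hy2 g hg
    rw [hdu, Pi.smul_apply, smul_eq_mul, mul_eq_zero] at this
    exact this.resolve_left (MvPolynomial.X_ne_zero 0)
  have hu3 : G.dA (MvPolynomial (Fin (d + 1)) k) u = 0 := X0_smul_cancel (by
    rw [smul_zero, ← map_smul, ← hdu, FreeCx.dA_dA])
  obtain ⟨v, hv1, hv2, hv3⟩ := exact (t - 1) i hi hiL u hu hu2 hu3
  refine ⟨y₀ - (X 0 : (MvPolynomial (Fin (d + 1)) k)) • v, (mem_cyc G deg).2 ⟨sub_mem hy1 ?_, fun g hg => ?_, ?_⟩, ?_⟩
  · simpa using smul_mem_piece (X_mem_homInt (A := k) (0 : Fin (d + 1))) hv1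
  · simp [hy2 g hg, hv2 g hg]
  · rw [map_sub, map_smul, hv3, hdu, sub_self]
  · rw [map_sub, redV_smul, red_X0, zero_smul, sub_zero, hy0]

end Reduced

/-- The cycles have a basis. -/
theorem hasBasis_cyc : ∀ {d : ℕ} (G : FreeCx (MvPolynomial (Fin d) k)) (deg : G.ι → ℤ),
    (∀ h g, G.mat h g ∈ homInt k d (deg g - deg h)) → ∀ (L : ℕ), d ≤ L → 1 ≤ L →
    (∀ t (i : ℕ), 1 ≤ i → i < L → ∀ z ∈ degPiece k deg t, (∀ g, G.pos g ≠ i → z g = 0) →
      G.dA (MvPolynomial (Fin d) k) z = 0 →
        ∃ y ∈ degPiece k deg t, (∀ g, G.pos g ≠ i + 1 → y g = 0) ∧ G.dA (MvPolynomial (Fin d) k) y = z) →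
    HasBasis (cyc G deg L) := by
  intro d
  induction d with
  | zero => exact fun G deg _ L _ _ _ => hasBasis_zero _ fun t f hf => ((mem_cyc G deg).1 hf).1
  | succ d ih =>
    intro G deg homog L hL hL1 exact'
    refine hasBasis_lift (cyc G deg L) (fun t f hf => ((mem_cyc G deg).1 hf).1) ?_ ?_ ?_
    · intro t e q hq f hf
      rw [mem_cyc] at hf ⊢
      exact ⟨smul_mem_piece hq hf.1, fun g hg => by simp [hf.2.1 g hg],
        by rw [map_smul, hf.2.2, smul_zero]⟩
    · intro t u hu hXu
      rw [mem_cyc] at hXu ⊢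
      refine ⟨hu, fun g hg => ?_, X0_smul_cancel (by rw [← map_smul, hXu.2.2, smul_zero])⟩
      have := hXu.2.1 g hg
      rw [Pi.smul_apply, smul_eq_mul, mul_eq_zero] at this
      exact this.resolve_left (MvPolynomial.X_ne_zero 0)
    · rcases eq_or_lt_of_le hL1 with rfl | hL2
      · obtain rfl : d = 0 := by omega
        refine hasBasis_zero (deg := deg) _ fun t => ?_
        rintro _ ⟨f, hf, rfl⟩
        exact redV_mem ((mem_cyc G deg).1 hf).1
      · obtain ⟨i, rfl⟩ : ∃ i, L = i + 1 := ⟨L - 1, by omega⟩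
        have heq : (fun t => (cyc G deg (i + 1) t).map redV) = cyc (redCx G) deg i := by
          funext t
          refine le_antisymm ?_ fun z hz => ?_
          · rintro _ ⟨f, hf, rfl⟩
            rw [SetLike.mem_coe, mem_cyc] at hf
            refine (mem_cyc (redCx G) deg).2 ⟨redV_mem hf.1, fun g hg => ?_, ?_⟩
            · show red (f g) = 0
              rw [hf.2.1 g fun e => hg (show G.pos g - 1 = i by omega), map_zero]
            · rw [redCx_dA G (by omega) hf.2.1, hf.2.2, map_zero]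
          · exact exists_cycle_lift homog exact' (by omega) (by omega) hz
        rw [heq]
        refine ih (redCx G) deg (fun h g => ?_) i (by omega) (by omega) fun t j hj hji z hz1 hz2 hz3 => ?_
        · show (if G.pos h = 0 then 0 else red (G.mat h g)) ∈ _
          split_ifs
          · exact zero_mem _
          · exact red_mem (homog h g)
        · obtain ⟨y, hy, rfl⟩ := exists_cycle_lift homog exact' hj (by omega)
            ((mem_cyc (redCx G) deg).2 ⟨hz1, hz2, hz3⟩)
          rw [mem_cyc] at hy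
          obtain ⟨w, hw1, hw2, hw3⟩ := exact' t (j + 1) (by omega) (by omega) y hy.1 hy.2.1 hy.2.2
          refine ⟨redV w, redV_mem hw1, fun g hg => ?_, ?_⟩
          · show red (w g) = 0
            rw [hw2 g fun e => hg (show G.pos g - 1 = j + 1 by omega), map_zero]
          · rw [redCx_dA G (by omega) hw2, hw3]

end Syz

/-- Hilbert's syzygy theorem, graded form: the cycles of position `L ≥ d` of a complex exact below
have a homogeneous basis. -/
theorem exists_kernel_basis {k : Type u} [Field k] {d : ℕ} (G : FreeCx (MvPolynomial (Fin d) k))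
    (deg : G.ι → ℤ) (homog : ∀ h g, G.mat h g ∈ homInt k d (deg g - deg h)) (L : ℕ) (hL : d ≤ L)
    (hL1 : 1 ≤ L)
    (exact : ∀ t (i : ℕ), 1 ≤ i → i < L → ∀ z ∈ degPiece k deg t,
      (∀ g, G.pos g ≠ i → z g = 0) → G.dA (MvPolynomial (Fin d) k) z = 0 →
        ∃ y ∈ degPiece k deg t, (∀ g, G.pos g ≠ i + 1 → y g = 0) ∧ G.dA (MvPolynomial (Fin d) k) y = z) :
    ∃ (r : ℕ) (τ : Fin r → ℤ) (b : Fin r → G.ι → MvPolynomial (Fin d) k),
      (∀ i, b i ∈ degPiece k deg (τ i) ∧ (∀ g, G.pos g ≠ L → b i g = 0) ∧ G.dA (MvPolynomial (Fin d) k) (b i) = 0) ∧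
      (∀ t, ∀ z ∈ degPiece k deg t, (∀ g, G.pos g ≠ L → z g = 0) → G.dA (MvPolynomial (Fin d) k) z = 0 →
        ∃ q : Fin r → MvPolynomial (Fin d) k,
          (∀ i, q i ∈ homInt k d (t - τ i)) ∧ z = ∑ i, q i • b i) ∧
      (∀ t (q : Fin r → MvPolynomial (Fin d) k), (∀ i, q i ∈ homInt k d (t - τ i)) →
        ∑ i, q i • b i = 0 → q = 0) := by
  classical
  obtain ⟨κ, _, τ, b, hb, hspan, hind⟩ := Syz.hasBasis_cyc G deg homog L hL hL1 exact
  let e := (Fintype.equivFin κ).symm
  refine ⟨_, τ ∘ e, b ∘ e, fun i => (Syz.mem_cyc G deg).1 (hb (e i)), ?_, ?_⟩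
  · intro t z h1 h2 h3
    obtain ⟨q, hq, rfl⟩ := hspan t z ((Syz.mem_cyc G deg).2 ⟨h1, h2, h3⟩)
    exact ⟨q ∘ e, fun i => hq (e i), (e.sum_comp fun j => q j • b j).symm⟩
  · intro t q hq h0
    have h1 := hind t (q ∘ e.symm) (fun j => by simpa using hq (e.symm j)) (by
      rw [← e.sum_comp fun j => (q ∘ e.symm) j • b j]
      simpa using h0)
    funext i
    simpa using congrFun h1 (e i)

end Vale.Agent.P202.Mixed.Slice
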