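import Vale.Agent.P202.Mixed.Slice.Partial
import Vale.Agent.P202.Mixed.Slice.Syzygy

/-!
# P202 mixed characteristic: a complex over a domain resolving the sections modulo the maximal ideal

Cycles over the residue field in the last position are free and lift to cycles, so one extension
of an augmented complex becomes a resolution modulo the maximal ideal.
-/

noncomputable section

namespace Vale.Agent.P202.Mixed.Slice

open Finset Segre

universe v

/-- A graded complex over `A` resolving the sections modulo the maximal ideal. -/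
theorem exists_resolution {A : Type v} [CommRing A] [IsDomain A] [IsNoetherianRing A] {k₀ : Type v}
    [Field k₀] {φ : A →+* k₀} (hφ : Function.Surjective φ) {p : A} (hp : φ p = 0)
    (hker : ∀ a, φ a = 0 → p ∣ a) {n : ℕ} (hn : 1 ≤ n) (c : Fin n → ℤ) :
    ∃ (G : FreeCx (MvPolynomial (Fin (n + 1)) A)) (deg : G.ι → ℤ) (w : G.ι → Lau A n),
      (∀ h g, G.mat h g ∈ homInt A (n + 1) (deg g - deg h)) ∧
        IsAugRes c (G.map (MvPolynomial.map φ)) deg (fun g => mapLau φ n (w g)) := by
  classical
  obtain ⟨G, deg, w, hG⟩ := exists_isPartial (A := A) hn c (n + 1)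
  have haug : ∀ (i : ℕ), 1 ≤ i → ∀ z : G.ι → MvPolynomial (Fin (n + 1)) k₀,
      (∀ g, G.pos g ≠ i → z g = 0) → ∑ g, aev k₀ n (z g) * mapLau φ n (w g) = 0 := by
    intro i hi z hz
    refine Finset.sum_eq_zero fun g _ => ?_
    by_cases hg : G.pos g = 0
    · rw [hz g (by omega), map_zero, zero_mul]
    · rw [hG.w_zero g hg, map_zero, mul_zero]
  obtain ⟨r, τ, b, hb, hgen, hind⟩ := exists_kernel_basis (G.map (MvPolynomial.map φ)) deg
    (fun h g => map_mem_homInt φ (hG.homog h g)) (n + 1) le_rfl (by omega)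
    (fun t i hi1 hiL z hz hs hd => hG.exact_map hφ hp hker t i hiL z hz hs hd (haug i hi1 z hs))
  choose z hz1 hz2 hz3 _ hz5 using fun j => hG.lift_cycle hφ hp hker (τ j) (n + 1) le_rfl (b j)
    (hb j).1 (hb j).2.1 (hb j).2.2 (haug (n + 1) (by omega) (b j) (hb j).2.1)
  have hz : ∀ j, (∀ g, G.pos g ≠ n + 1 → z j g = 0) ∧
      G.dA (MvPolynomial (Fin (n + 1)) A) (z j) = 0 := fun j => ⟨hz2 j, hz3 j⟩
  refine ⟨extendCx G (n + 1) r z hz, Sum.elim deg τ, Sum.elim w fun _ => 0, ?_, ?_⟩
  · rintro (h | i) (g | j)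
    · exact hG.homog h g
    · exact mem_piece.1 (hz1 j) h
    · exact Submodule.zero_mem _
    · exact Submodule.zero_mem _
  have hd' : ∀ (f : G.ι ⊕ Fin r → MvPolynomial (Fin (n + 1)) k₀),
      (∀ h, ((extendCx G (n + 1) r z hz).map (MvPolynomial.map φ)).dA
          (MvPolynomial (Fin (n + 1)) k₀) f (.inl h) =
        (G.map (MvPolynomial.map φ)).dA (MvPolynomial (Fin (n + 1)) k₀) (fun g => f (.inl g)) h +
          ∑ j, f (.inr j) * b j h) ∧
      ∀ i, ((extendCx G (n + 1) r z hz).map (MvPolynomial.map φ)).dA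
          (MvPolynomial (Fin (n + 1)) k₀) f (.inr i) = 0 := by
    intro f
    refine ⟨fun h => ?_, fun i => ?_⟩
    · show ∑ q : G.ι ⊕ Fin r, MvPolynomial.map φ (extMat G r z (.inl h) q) * f q = _
      rw [Fintype.sum_sum_type]
      refine congrArg₂ (· + ·) rfl (Finset.sum_congr rfl fun j _ => ?_)
      show MvPolynomial.map φ (z j h) * f (.inr j) = _
      rw [← hz5 j, mul_comm]
    · show ∑ q : G.ι ⊕ Fin r, MvPolynomial.map φ (extMat G r z (.inr i) q) * f q = _
      simp [extMat]
  refine ⟨?_, ?_, ?_, ?_, ?_, ?_⟩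
  · rintro (h | i) (g | j)
    · exact map_mem_homInt φ (hG.homog h g)
    · exact map_mem_homInt φ (mem_piece.1 (hz1 j) h)
    · exact map_mem_homInt φ (Submodule.zero_mem _)
    · exact map_mem_homInt φ (Submodule.zero_mem _)
  · rintro (g | j)
    · exact mapLau_mem_sec φ (hG.w_mem g)
    · show mapLau φ n 0 ∈ _
      rw [map_zero]
      exact Submodule.zero_mem _
  · rintro (g | j) hg
    · show mapLau φ n (w g) = 0
      rw [hG.w_zero g hg, map_zero]
    · exact map_zero _
  · intro g
    show ∑ h : G.ι ⊕ Fin r, aev k₀ n (MvPolynomial.map φ (extMat G r z h g)) *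
      mapLau φ n (Sum.elim w (fun _ => 0) h) = 0
    simp only [← mapLau_aev, ← map_mul, ← map_sum, Fintype.sum_sum_type, Sum.elim_inl,
      Sum.elim_inr, mul_zero, Finset.sum_const_zero, add_zero]
    rcases g with g | j <;> simp only [extMat, Matrix.of_apply]
    · rw [hG.aug_d g, map_zero]
    · simp only [map_sum, map_mul, mapLau_aev]
      rw [← haug (n + 1) (by omega) (b j) (hb j).2.1, ← hz5 j]
  · intro t i (x : G.ι ⊕ Fin r → MvPolynomial (Fin (n + 1)) k₀) hx hxi hd ha
    have hd0 : ∀ h, (G.map (MvPolynomial.map φ)).dA (MvPolynomial (Fin (n + 1)) k₀)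
        (fun g => x (.inl g)) h + ∑ j, x (.inr j) * b j h = 0 := fun h =>
      ((hd' x).1 h).symm.trans (congrFun hd (.inl h))
    have hposl : ∀ g, (G.pos g : ℤ) ≠ i → x (.inl g) = 0 := fun g hg => hxi (.inl g) hg
    have hposr : ∀ j, ((n + 1 + 1 : ℕ) : ℤ) ≠ i → x (.inr j) = 0 := fun j hj => hxi (.inr j) hj
    by_cases hbig : i < 0 ∨ ((n + 1 + 1 : ℕ) : ℤ) ≤ i
    · refine ⟨0, Submodule.zero_mem _, Submodule.zero_mem _, ?_⟩
      rw [map_zero]
      have hl : ∀ g, x (.inl g) = 0 := fun g => hposl g (by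
        have := hG.len g
        omega)
      have hr : ∀ j, x (.inr j) = 0 := by
        by_cases he : ((n + 1 + 1 : ℕ) : ℤ) = i
        · have hq : ∀ j, x (.inr j) ∈ homInt k₀ (n + 1) (t - τ j) := fun j =>
            mem_degPiece.1 hx (.inr j)
          refine congrFun (hind t (fun j => x (.inr j)) hq (funext fun h => ?_))
          have h1 := hd0 h
          have h0 : (G.map (MvPolynomial.map φ)).dA (MvPolynomial (Fin (n + 1)) k₀)
              (fun g => x (.inl g)) h = 0 :=
            congrFun ((congrArg (fun v : G.ι → MvPolynomial (Fin (n + 1)) k₀ =>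
              (G.map (MvPolynomial.map φ)).dA (MvPolynomial (Fin (n + 1)) k₀) v)
                (show (fun g => x (.inl g)) = 0 from funext hl)).trans (map_zero _)) h
          rw [h0, zero_add] at h1
          exact (Finset.sum_apply h univ fun j => x (.inr j) • b j).trans h1
        · exact fun j => hposr j he
      refine funext ?_
      rintro (g | j)
      · exact (hl g).symm
      · exact (hr j).symm
    push Not at hbig
    obtain ⟨m, rfl⟩ : ∃ m : ℕ, (m : ℤ) = i := ⟨i.toNat, Int.toNat_of_nonneg hbig.1⟩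
    have hm : m ≤ n + 1 := by omega
    have hr : ∀ j, x (.inr j) = 0 := fun j => hposr j (by omega)
    have hxl : (fun g => x (.inl g)) ∈ piece k₀ deg t :=
      mem_piece.2 fun g => mem_degPiece.1 hx (.inl g)
    have hs : ∀ g, G.pos g ≠ m → x (.inl g) = 0 := fun g hg => hposl g (by omega)
    have hcyc : (G.map (MvPolynomial.map φ)).dA (MvPolynomial (Fin (n + 1)) k₀)
        (fun g => x (.inl g)) = 0 := funext fun h => by
      have h1 := hd0 h
      simp only [hr, zero_mul, Finset.sum_const_zero, add_zero] at h1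
      exact h1
    rcases hm.lt_or_eq with hlt | rfl
    · have ha' : ∑ g, aev k₀ n (x (.inl g)) * mapLau φ n (w g) = 0 := by
        have h2 := ((augL_apply _ _).trans (Fintype.sum_sum_type _)).symm.trans ha
        simpa [hr] using h2
      obtain ⟨y, hy, hys, hyd⟩ := hG.exact_map hφ hp hker t m hlt _ hxl hs hcyc ha'
      refine ⟨Sum.elim y 0, mem_degPiece.2 ?_, ?_, funext ?_⟩
      · rintro (g | j)
        · exact mem_piece.1 hy g
        · exact Submodule.zero_mem _
      · rintro (g | j) hg
        · refine hys g fun h => hg ?_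
          show (G.pos g : ℤ) = (m : ℤ) + 1
          omega
        · rfl
      · rintro (h | j)
        · refine ((hd' _).1 h).trans ?_
          simp only [Sum.elim_inr, Pi.zero_apply, zero_mul, Finset.sum_const_zero,
            add_zero]
          exact congrFun hyd h
        · exact ((hd' _).2 j).trans (hr j).symm
    · obtain ⟨q, hq, hqx⟩ := hgen t _ hxl hs hcyc
      refine ⟨Sum.elim 0 q, mem_degPiece.2 ?_, ?_, funext ?_⟩
      · rintro (g | j)
        · exact Submodule.zero_mem _
        · exact hq j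
      · rintro (g | j) hg
        · rfl
        · exact absurd (show ((n + 1 + 1 : ℕ) : ℤ) = ((n + 1 : ℕ) : ℤ) + 1 by push_cast; rfl) hg
      · rintro (h | j)
        · refine ((hd' _).1 h).trans ((congrArg₂ (· + ·)
            (congrFun (map_zero ((G.map (MvPolynomial.map φ)).dA _)) h) rfl).trans ?_)
          have h3 := (congrFun hqx h).trans (Finset.sum_apply h univ fun j => q j • b j)
          exact (zero_add _).trans h3.symm
        · exact ((hd' _).2 j).trans (hr j).symm
  · intro t x hx
    let G' := (extendCx G (n + 1) r z hz).map (MvPolynomial.map φ)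
    let w' : G'.ι → Lau k₀ n := fun g => mapLau φ n (Sum.elim w (fun _ => 0) g)
    suffices hsub : sec k₀ c t ≤ (degPiece k₀ (ι := G'.ι) (d := n + 1) (Sum.elim deg τ) t ⊓
        (G'.diff (MvPolynomial (Fin (n + 1)) k₀) k₀).deg 0).map (augL w') by
      obtain ⟨y, ⟨h1, h2⟩, h3⟩ := hsub hx
      exact ⟨y, h1, h2, h3⟩
    refine sec_le_of_single _ fun α hα a => ?_
    obtain ⟨a', rfl⟩ := hφ a
    obtain ⟨y, hy, hy0, hya⟩ := hG.surj t _ (single_mem_sec hα a')
    refine ⟨Sum.elim (fun g => MvPolynomial.map φ (y g)) 0, ⟨mem_degPiece.2 ?_, ?_⟩, ?_⟩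
    · rintro (g | j)
      · exact map_mem_homInt φ (mem_piece.1 hy g)
      · exact Submodule.zero_mem _
    · rintro (g | j) hg
      · show MvPolynomial.map φ (y g) = 0
        rw [hy0 g (fun h => hg (by show (G.pos g : ℤ) = 0; omega)), map_zero]
      · rfl
    · refine (augL_apply _ _).trans ((Fintype.sum_sum_type _).trans ?_)
      simp only [w', Sum.elim_inl, Sum.elim_inr, Pi.zero_apply, map_zero, mul_zero,
        Finset.sum_const_zero, add_zero]
      rw [map_aug, hya, mapLau_single]

end Vale.Agent.P202.Mixed.Slice
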