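import Vale.Agent.P202.Mixed.Defs

/-!
# P202 mixed characteristic: the homotopy on the Koszul complex

If `∑ ρ a * z a = 1`, the transpose of the Koszul matrix of `ρ` contracts the Koszul complex of `z`.
-/

noncomputable section

namespace Vale.Agent.P202.Mixed.Slice

open Finset Matrix

variable {A : Type*} [CommRing A] {d : ℕ}

theorem kosMat_apply (z : Fin d → A) (T S : Finset (Fin d)) :
    kosMat z T S = ∑ a, if a ∉ S ∧ T = insert a S then kosSign S a • z a else 0 := by
  rw [kosMat, Matrix.of_apply, Finset.sum_filter]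

theorem map_kosMat {A' : Type*} [CommRing A'] (φ : A →+* A') (z : Fin d → A)
    (T S : Finset (Fin d)) : φ (kosMat z T S) = kosMat (fun a => φ (z a)) T S := by
  simp only [kosMat_apply, map_sum, apply_ite φ, map_zero, map_zsmul]

theorem kosMat_ne_zero_card {z : Fin d → A} {T S : Finset (Fin d)} (h : kosMat z T S ≠ 0) :
    T.card = S.card + 1 := by
  rw [kosMat_apply] at h
  obtain ⟨a, -, ha⟩ := Finset.exists_ne_zero_of_sum_ne_zero h
  split_ifs at ha with hc
  · rw [hc.2, Finset.card_insert_of_notMem hc.1]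
  · exact absurd rfl ha

theorem kosMat_eq_zero {z : Fin d → A} {T S : Finset (Fin d)} (h : T.card ≠ S.card + 1) :
    kosMat z T S = 0 := by_contra fun h0 => h (kosMat_ne_zero_card h0)

/-- Rescaling intertwines Koszul complexes. -/
theorem kosMat_rescale (z z' s : Fin d → A) (hz : ∀ a, z' a = s a * z a)
    (τ : Finset (Fin d) → A) (hτ : ∀ a S, a ∉ S → τ (insert a S) = τ S * s a)
    (T S : Finset (Fin d)) : kosMat z' T S * τ S = τ T * kosMat z T S := by
  simp only [kosMat_apply, Finset.sum_mul, Finset.mul_sum]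
  refine Finset.sum_congr rfl fun a _ => ?_
  split_ifs with h
  · rw [h.2, hτ a S h.1, hz a]
    simp only [zsmul_eq_mul]
    ring
  · simp

theorem kosSign_sq (S : Finset (Fin d)) (a : Fin d) : kosSign S a * kosSign S a = 1 := by
  rw [kosSign, ← pow_add, ← two_mul, pow_mul]
  simp

theorem kosSign_swap' (S : Finset (Fin d)) {a b : Fin d} (ha : a ∉ S) (hb : b ∉ S) (hab : a ≠ b) :
    kosSign S a * kosSign S b + kosSign (insert a S) b * kosSign (insert b S) a = 0 := by
  have h1 := kosSign_swap S ha hb hab
  have h2 := kosSign_sq S a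
  have h3 := kosSign_sq (insert a S) b
  linear_combination (kosSign S b * kosSign (insert a S) b) * h1 -
    (kosSign S b * kosSign S a) * h3 -
    (kosSign (insert a S) b * kosSign (insert b S) a) * kosSign_sq S b

theorem sum_up (z ρ : Fin d → A) (a b : Fin d) (T U : Finset (Fin d)) :
    ∑ S, (if a ∉ S ∧ T = insert a S then kosSign S a • z a else 0) *
      (if b ∉ S ∧ U = insert b S then kosSign S b • ρ b else 0) =
        if a ∈ T ∧ b ∈ U ∧ T.erase a = U.erase b then
          (kosSign (T.erase a) a * kosSign (T.erase a) b) • (z a * ρ b) else 0 := by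
  rw [Fintype.sum_eq_single (T.erase a) fun S hS => by
    rw [if_neg fun h => hS (by rw [h.2, Finset.erase_insert h.1]), zero_mul]]
  by_cases h : a ∈ T ∧ b ∈ U ∧ T.erase a = U.erase b
  · obtain ⟨h1, h2, h3⟩ := h
    rw [if_pos ⟨Finset.notMem_erase a T, (Finset.insert_erase h1).symm⟩,
      if_pos ⟨h3 ▸ Finset.notMem_erase b U, by rw [h3, Finset.insert_erase h2]⟩,
      if_pos ⟨h1, h2, h3⟩]
    simp only [zsmul_eq_mul, Int.cast_mul]
    ring
  · rw [if_neg h]
    split_ifs with h1 h2 <;> try simp only [mul_zero, zero_mul]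
    exact absurd ⟨h1.2 ▸ Finset.mem_insert_self a _, h2.2 ▸ Finset.mem_insert_self b _,
      by conv_rhs => rw [h2.2, Finset.erase_insert h2.1]⟩ h

theorem sum_down (z ρ : Fin d → A) (a b : Fin d) (T U : Finset (Fin d)) :
    ∑ S, (if b ∉ T ∧ S = insert b T then kosSign T b • ρ b else 0) *
      (if a ∉ U ∧ S = insert a U then kosSign U a • z a else 0) =
        if b ∉ T ∧ a ∉ U ∧ insert b T = insert a U then
          (kosSign T b * kosSign U a) • (z a * ρ b) else 0 := by
  rw [Fintype.sum_eq_single (insert b T) fun S hS => by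
    rw [if_neg fun h => hS h.2, zero_mul]]
  by_cases h : b ∉ T ∧ a ∉ U ∧ insert b T = insert a U
  · rw [if_pos ⟨h.1, rfl⟩, if_pos ⟨h.2.1, h.2.2⟩, if_pos h]
    simp only [zsmul_eq_mul, Int.cast_mul]
    ring
  · rw [if_neg h]
    split_ifs with h1 h2 <;> try simp only [mul_zero, zero_mul]
    exact absurd ⟨h1.1, h2.1, h2.2⟩ h

theorem pair_cancel (z ρ : Fin d → A) (a b : Fin d) (T U : Finset (Fin d)) :
    ((if a ∈ T ∧ b ∈ U ∧ T.erase a = U.erase b then
          (kosSign (T.erase a) a * kosSign (T.erase a) b) • (z a * ρ b) else 0) +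
      if b ∉ T ∧ a ∉ U ∧ insert b T = insert a U then
          (kosSign T b * kosSign U a) • (z a * ρ b) else 0) =
      if T = U ∧ a = b then z a * ρ b else 0 := by
  by_cases hab : a = b
  · subst hab
    by_cases hTU : T = U
    · subst hTU
      by_cases ha : a ∈ T <;> simp [ha, kosSign_sq]
    · rw [if_neg, if_neg, if_neg fun h => hTU h.1, add_zero]
      · exact fun h => hTU (by
          rw [← Finset.erase_insert h.1, h.2.2, Finset.erase_insert h.2.1])
      · exact fun h => hTU (by
          rw [← Finset.insert_erase h.1, h.2.2, Finset.insert_erase h.2.1])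
  · rw [if_neg fun h : T = U ∧ a = b => hab h.2]
    by_cases h : a ∈ T ∧ b ∈ U ∧ T.erase a = U.erase b
    · obtain ⟨h1, h2, h3⟩ := h
      set S := T.erase a with hS
      have hT : T = insert a S := (Finset.insert_erase h1).symm
      have hU : U = insert b S := by rw [h3, Finset.insert_erase h2]
      have ha : a ∉ S := Finset.notMem_erase a T
      have hb : b ∉ S := h3 ▸ Finset.notMem_erase b U
      rw [if_pos ⟨h1, h2, h3⟩, if_pos ⟨by simp [hT, hb, Ne.symm hab], by simp [hU, ha, hab],
        by rw [hT, hU, Finset.insert_comm]⟩, ← add_smul, hT, hU, kosSign_swap' S ha hb hab,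
        zero_smul]
    · rw [if_neg h, zero_add, if_neg]
      rintro ⟨hb, ha, e⟩
      have h1 : a ∈ T := by
        have := e ▸ Finset.mem_insert_self a U
        simpa [hab] using this
      have h2 : b ∈ U := by
        have := e.symm ▸ Finset.mem_insert_self b T
        simpa [Ne.symm hab] using this
      refine h ⟨h1, h2, ?_⟩
      ext x
      have := congrArg (fun V : Finset (Fin d) => decide (x ∈ V)) e
      simp only [Finset.mem_insert, decide_eq_decide] at this
      simp only [Finset.mem_erase]
      by_cases hxa : x = a <;> by_cases hxb : x = b <;> simp_all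

/-- The homotopy identity. -/
theorem kos_homotopy (z ρ : Fin d → A) :
    kosMat z * (kosMat ρ)ᵀ + (kosMat ρ)ᵀ * kosMat z = (∑ a, z a * ρ a) • (1 : Matrix _ _ A) := by
  ext T U
  rw [Matrix.add_apply, Matrix.smul_apply, Matrix.one_apply, smul_eq_mul, mul_ite, mul_one,
    mul_zero, Matrix.mul_apply, Matrix.mul_apply]
  simp only [Matrix.transpose_apply, kosMat_apply, Finset.sum_mul_sum]
  conv_lhs =>
    arg 1
    rw [Finset.sum_comm]
    arg 2
    ext a
    rw [Finset.sum_comm]
  conv_lhs =>
    arg 2
    rw [Finset.sum_comm]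
    arg 2
    ext b
    rw [Finset.sum_comm]
  simp only [sum_up, sum_down]
  conv_lhs =>
    arg 2
    rw [Finset.sum_comm]
  simp only [← Finset.sum_add_distrib, pair_cancel]
  split_ifs with h
  · simp [h]
  · simp [h]

end Vale.Agent.P202.Mixed.Slice
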