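import Vale.Agent.P202.Mixed.Slice.Charts
import Vale.Agent.P202.Mixed.Slice.Kos

/-!
# P202 mixed characteristic: the Koszul-Čech double complex

Its projection to the part without charts and its projection to the empty Koszul index are both
bijective on homology, compatibly with the transition to higher powers.
-/

noncomputable section

namespace Vale.Agent.P202.Mixed.Slice

open Finset Segre

universe u

variable {k : Type u} [Field k] {n : ℕ} {c : Fin n → ℤ}

variable (k n) in
/-- The powers of the elementary symmetric elements. -/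
def zC (B : ℕ) : Fin (n + 1) → Coef k n := fun a => esym k n a ^ B

variable (k n) in
/-- The Koszul complex with Laurent coefficients. -/
abbrev pCx (B : ℕ) : FreeCx (Coef k n) := kosCx (zC k n B)

/-- The sign of a Koszul index. -/
def sgnS (k : Type u) [Field k] {n : ℕ} (S : Finset (Fin (n + 1))) : k := (-1) ^ S.card

theorem delta_smul_coef (z : Coef k n) (f : Cov n → Coef k n) :
    delta k (Coef k n) (z • f) = z • delta k (Coef k n) f :=
  (delta (Coef k n) (Coef k n)).map_smul z f

theorem card_add_one_le (S : Finset (Fin (n + 1))) : S.card ≤ n + 1 :=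
  (Finset.card_le_univ S).trans_eq (Fintype.card_fin _)

theorem cdeg_le (e : Cov n) : cdeg n e ≤ n + 1 := by
  cases e with
  | none => simp [cdeg]
  | some ε =>
    have : twos n ε ≤ n := (Finset.card_le_univ _).trans_eq (Fintype.card_fin n)
    simp only [cdeg]
    omega

variable (k n) in
/-- The total differential. -/
def wD (B : ℕ) : (Finset (Fin (n + 1)) → Cov n → Coef k n) →ₗ[k]
    (Finset (Fin (n + 1)) → Cov n → Coef k n) :=
  ((pCx k n B).dA (Cov n → Coef k n)).restrictScalars k +
    LinearMap.pi fun S => sgnS k S • (delta k (Coef k n)).comp (LinearMap.proj S)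

theorem wD_apply (B : ℕ) (f : Finset (Fin (n + 1)) → Cov n → Coef k n)
    (S : Finset (Fin (n + 1))) (e : Cov n) :
    wD k n B f S e = (∑ U, kosMat (zC k n B) S U * f U e) +
      sgnS k S • delta k (Coef k n) (f S) e := by
  show ((∑ U, kosMat (zC k n B) S U • f U) + sgnS k S • delta k (Coef k n) (f S)) e = _
  rw [Pi.add_apply, Finset.sum_apply]
  rfl

theorem wD_eq (B : ℕ) (f : Finset (Fin (n + 1)) → Cov n → Coef k n)
    (S : Finset (Fin (n + 1))) :
    wD k n B f S = (∑ U, kosMat (zC k n B) S U • f U) + sgnS k S • delta k (Coef k n) (f S) := rfl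

theorem wD_wD (B : ℕ) (f : Finset (Fin (n + 1)) → Cov n → Coef k n) :
    wD k n B (wD k n B f) = 0 := by
  funext S
  rw [wD_eq]
  have h1 : ∀ U, kosMat (zC k n B) S U • wD k n B f U =
      (∑ V, kosMat (zC k n B) S U • kosMat (zC k n B) U V • f V) +
        kosMat (zC k n B) S U • sgnS k U • delta k (Coef k n) (f U) := fun U => by
    rw [wD_eq, smul_add, Finset.smul_sum]
  simp only [h1, Finset.sum_add_distrib]
  have h2 : ∑ U, ∑ V, kosMat (zC k n B) S U • kosMat (zC k n B) U V • f V = 0 := by
    rw [Finset.sum_comm]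
    refine Finset.sum_eq_zero fun V _ => ?_
    simp only [smul_smul, ← Finset.sum_smul, ← Matrix.mul_apply, kosMat_sq, Matrix.zero_apply,
      zero_smul]
  have h3 : sgnS k S • delta k (Coef k n) (wD k n B f S) =
      sgnS k S • ∑ U, kosMat (zC k n B) S U • delta k (Coef k n) (f U) := by
    rw [wD_eq, map_add, map_sum, map_smul, delta_delta, smul_zero, add_zero]
    simp only [delta_smul_coef]
  rw [h2, zero_add, h3, Finset.smul_sum, ← Finset.sum_add_distrib]
  refine Finset.sum_eq_zero fun U _ => ?_
  by_cases h : kosMat (zC k n B) S U = 0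
  · simp [h]
  · have hs : sgnS k U = - sgnS k S := by
      simp only [sgnS, kosMat_ne_zero_card h, pow_succ]
      ring
    rw [hs, neg_smul, smul_neg, smul_comm (kosMat (zC k n B) S U) (sgnS k S), neg_add_cancel]

variable (k n) in
/-- The double complex, in positions `n + 1 - |S| - cdeg`. -/
def wDiff (B : ℕ) : Diff k (Finset (Fin (n + 1)) → Cov n → Coef k n) where
  d := wD k n B
  deg j :=
    { carrier := {f | ∀ S e, ((n + 1 - S.card : ℕ) : ℤ) - cdeg n e ≠ j → f S e = 0}
      add_mem' := fun {f g} hf hg S e h => by simp [hf S e h, hg S e h]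
      zero_mem' := fun S e _ => rfl
      smul_mem' := fun r f hf S e h => by simp [hf S e h] }
  d_d := wD_wD B
  d_deg := by
    intro j f hf S e he
    have h1 : ∑ U, kosMat (zC k n B) S U * f U e = 0 := by
      refine Finset.sum_eq_zero fun U _ => ?_
      by_cases h : kosMat (zC k n B) S U = 0
      · simp [h]
      · have := kosMat_ne_zero_card h
        have := card_add_one_le S
        rw [hf U e (by omega), mul_zero]
    have h2 : delta k (Coef k n) (f S) e = 0 := by
      have hzero : ∀ a : ℕ, ((n + 1 - S.card : ℕ) : ℤ) - a = j → cdeg n e ≠ a + 1 := by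
        intro a ha he'
        omega
      by_cases ha : ∃ a : ℕ, ((n + 1 - S.card : ℕ) : ℤ) - a = j
      · obtain ⟨a, ha⟩ := ha
        exact delta_apply_eq_zero (R := k) (f S) a (fun e' he' => hf S e' (by omega)) e (hzero a ha)
      · rw [show f S = 0 from funext fun e' => hf S e' fun h => ha ⟨_, h⟩, map_zero]
        rfl
    rw [wD_apply, h1, h2, smul_zero, add_zero]

variable (k) in
/-- The allowed part in degree `t`. -/
def wX (B : ℕ) (c : Fin n → ℤ) (t : ℤ) :
    Submodule k (Finset (Fin (n + 1)) → Cov n → Coef k n) :=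
  Submodule.pi Set.univ fun S => sliceC k c (t + ((B * S.card : ℕ) : ℤ))

theorem mem_wX {B : ℕ} {t : ℤ} {f : Finset (Fin (n + 1)) → Cov n → Coef k n} :
    f ∈ wX k B c t ↔ ∀ S e, f S e ∈ compC k c (t + ((B * S.card : ℕ) : ℤ)) e := by
  simp [wX, mem_sliceC]

theorem kos_mul_mem {t : ℤ} {B : ℕ} {S U : Finset (Fin (n + 1))} {e : Cov n} {f : Coef k n}
    (hf : f ∈ compC k c (t + ((B * U.card : ℕ) : ℤ)) e) :
    kosMat (zC k n B) S U * f ∈ compC k c (t + ((B * S.card : ℕ) : ℤ)) e := by
  rw [kosMat_apply, Finset.sum_mul]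
  refine Submodule.sum_mem _ fun a _ => ?_
  split_ifs with h
  · have h2 := esym_pow_mul_mem e (a : ℕ) B hf
    rw [h.2, Finset.card_insert_of_notMem h.1, zsmul_eq_mul, mul_assoc, ← zsmul_eq_mul,
      show t + ((B * (U.card + 1) : ℕ) : ℤ) = t + ((B * U.card : ℕ) : ℤ) + B by push_cast; ring]
    exact zsmul_mem h2 _
  · simp

theorem delta_mem_slice {t : ℤ} {f : Cov n → Coef k n} (hf : f ∈ sliceC k c t) :
    delta k (Coef k n) f ∈ sliceC k c t :=
  mem_slice_of_supC fun α => by
    rw [coefA_delta]
    exact supC_dC (supC_of_slice hf α)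

theorem wX_stable (B : ℕ) (t : ℤ) : (wDiff k n B).Stable (wX k B c t) := by
  intro f hf
  rw [mem_wX] at hf ⊢
  intro S e
  show wD k n B f S e ∈ _
  rw [wD_apply]
  exact Submodule.add_mem _ (Submodule.sum_mem _ fun U _ => kos_mul_mem (hf U e))
    (Submodule.smul_mem _ _ (delta_mem_slice (fun e' => hf S e') e))

/-! ### Projection away from the charts -/

variable (k n) in
/-- The projection to the part without charts. -/
def toP : (Finset (Fin (n + 1)) → Cov n → Coef k n) →ₗ[k] (Finset (Fin (n + 1)) → Coef k n) :=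
  LinearMap.pi fun S => (LinearMap.proj (R := k) (φ := fun _ : Cov n => Coef k n) none).comp
    (LinearMap.proj S)

theorem toP_apply (f : Finset (Fin (n + 1)) → Cov n → Coef k n) (S : Finset (Fin (n + 1))) :
    toP k n f S = f S none := rfl

variable (k) in
/-- The sections in the degrees of the Koszul complex. -/
def pX (B : ℕ) (c : Fin n → ℤ) (t : ℤ) : Submodule k (Finset (Fin (n + 1)) → Coef k n) :=
  Submodule.pi Set.univ fun S => sec k c (t + ((B * S.card : ℕ) : ℤ))

theorem cmap_toP (B : ℕ) (t : ℤ) :
    CMap (wDiff k n B) ((pCx k n B).diff (Coef k n) k) (toP k n) (wX k B c t) (pX k B c t) 0 where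
  comm f _ := by
    refine funext fun (S : Finset (Fin (n + 1))) => ?_
    show wD k n B f S none = (pCx k n B).dA (Coef k n) (toP k n f) S
    rw [wD_apply, delta_none, smul_zero, add_zero]
    rfl
  deg j f hf := fun (S : Finset (Fin (n + 1))) hS => hf S none (by
    have h' : ((n + 1 - S.card : ℕ) : ℤ) ≠ j + 0 := hS
    simp only [cdeg]
    omega)
  maps f hf S _ := mem_compC_none.1 (mem_wX.1 hf S none)

theorem toP_surj (B : ℕ) (t j : ℤ) (x : Finset (Fin (n + 1)) → Coef k n) (hx : x ∈ pX k B c t)
    (hj : x ∈ ((pCx k n B).diff (Coef k n) k).deg (j + 0)) :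
    ∃ f ∈ wX k B c t, f ∈ (wDiff k n B).deg j ∧ toP k n f = x := by
  refine ⟨fun S e => Option.elim e (x S) (fun _ => 0), mem_wX.2 fun S e => ?_, fun S e he => ?_,
    rfl⟩
  · cases e with
    | none => exact hx S (Set.mem_univ S)
    | some ε => exact Submodule.zero_mem _
  · cases e with
    | none =>
      refine hj S ?_
      show ((n + 1 - S.card : ℕ) : ℤ) ≠ j + 0
      simp only [cdeg] at he
      omega
    | some ε => rfl

/-- The part over the charts is acyclic. -/
theorem toP_acyclic (B : ℕ) (t : ℤ) :
    Acyclic (wDiff k n B) (wX k B c t ⊓ LinearMap.ker (toP k n)) := by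
  classical
  have hst : (wDiff k n B).Stable (wX k B c t ⊓ LinearMap.ker (toP k n)) := by
    rintro f ⟨hf, hf0⟩
    refine ⟨wX_stable B t f hf, LinearMap.mem_ker.2 ?_⟩
    exact ((cmap_toP B t).comm f hf).trans
      ((congrArg _ (LinearMap.mem_ker.1 hf0)).trans (map_zero _))
  choose ρ hρ1 hρ2 using exists_rho (n := n) k c B
  let L : ℕ → Submodule k (Finset (Fin (n + 1)) → Cov n → Coef k n) := fun m =>
    { carrier := {f | ∀ S e, cdeg n e < m → f S e = 0}
      add_mem' := fun {f g} hf hg S e h => by simp [hf S e h, hg S e h]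
      zero_mem' := fun S e _ => rfl
      smul_mem' := fun r f hf S e h => by simp [hf S e h] }
  refine acyclic_of_levels hst L (n + 2) (fun f _ S e h => absurd h (Nat.not_lt_zero _))
    (fun f _ hf => funext fun S => funext fun e => hf S e (by have := cdeg_le e; omega)) ?_
  rintro m j x ⟨hx, hx0⟩ hj hL hd
  have hnone : ∀ S, x S none = 0 := fun S => congrFun (LinearMap.mem_ker.1 hx0) S
  let y : Finset (Fin (n + 1)) → Cov n → Coef k n := fun S e =>
    Option.elim e 0 fun ε => if cdeg n (some ε) = m then
      ∑ T, kosMat (ρ ε) T S * x T (some ε) else 0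
  refine ⟨y, ⟨mem_wX.2 fun S e => ?_, LinearMap.mem_ker.2 (funext fun S => rfl)⟩,
    fun S e he => ?_, fun S e he => ?_⟩
  · cases e with
    | none => exact Submodule.zero_mem _
    | some ε =>
      show (if _ then _ else _) ∈ _
      split_ifs
      · refine Submodule.sum_mem _ fun T _ => ?_
        rw [kosMat_apply, Finset.sum_mul]
        refine Submodule.sum_mem _ fun a _ => ?_
        split_ifs with h
        · rw [zsmul_eq_mul, mul_assoc, ← zsmul_eq_mul]
          refine zsmul_mem ?_ _
          have h2 := hρ2 ε a _ _ (mem_wX.1 hx T (some ε))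
          rw [h.2] at h2 ⊢
          rwa [ Finset.card_insert_of_notMem h.1,
            show t + ((B * (S.card + 1) : ℕ) : ℤ) - B = t + ((B * S.card : ℕ) : ℤ) by
              push_cast; ring] at h2
        · simp
      · exact Submodule.zero_mem _
  · cases e with
    | none => rfl
    | some ε =>
      show (if _ then _ else _) = _
      split_ifs with h1
      · refine Finset.sum_eq_zero fun T _ => ?_
        by_cases h : kosMat (ρ ε) T S = 0
        · simp [h]
        · have := kosMat_ne_zero_card h
          have := card_add_one_le T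
          rw [hj T (some ε) (by omega), mul_zero]
      · rfl
  · have hy0 : ∀ S e, cdeg n e ≠ m → y S e = 0 := by
      intro S e he
      cases e with
      | none => rfl
      | some ε => exact if_neg he
    show x S e - wD k n B y S e = 0
    rw [wD_apply, delta_apply_eq_zero (R := k) (y S) m (fun e' h' => hy0 S e' h') e (by omega),
      smul_zero, add_zero]
    rcases Nat.lt_or_ge (cdeg n e) m with h | h
    · rw [hL S e h, Finset.sum_eq_zero fun U _ => by rw [hy0 U e (by omega), mul_zero], sub_zero]
    · have he' : cdeg n e = m := by omega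
      cases e with
      | none => rw [hnone S, Finset.sum_eq_zero fun U _ => by
          rw [show y U none = 0 from rfl, mul_zero], sub_zero]
      | some ε =>
        have hdx : ∀ U, ∑ V, kosMat (zC k n B) U V * x V (some ε) = 0 := by
          intro U
          have h0 : wD k n B x U (some ε) = 0 := congrFun (congrFun hd U) (some ε)
          have hz : delta k (Coef k n) (x U) (some ε) = 0 := by
            rcases Nat.eq_zero_or_pos m with hm | hm
            · simp [cdeg] at he'
              omega
            · rw [delta_some]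
              have hlow : ∀ e', cdeg n e' < m → x U e' = 0 := fun e' h' => hL U e' h'
              simp only [cdeg] at he'
              rw [hnone U, ite_self, zero_add]
              refine Finset.sum_eq_zero fun a ha => ?_
              have ha2 : ε a = 2 := (Finset.mem_filter.1 ha).2
              have t0 := twos_update_of_eq_two ha2 (v := 0) (by decide)
              have t1 := twos_update_of_eq_two ha2 (v := 1) (by decide)
              rw [lowDiff, hlow _ (by simp only [cdeg]; omega),
                hlow _ (by simp only [cdeg]; omega), sub_self, smul_zero]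
          rwa [wD_apply, hz, smul_zero, add_zero] at h0
        have hy : ∀ U, y U (some ε) = ∑ T, kosMat (ρ ε) T U * x T (some ε) := fun U => if_pos he'
        simp only [hy, Finset.mul_sum, ← mul_assoc]
        rw [Finset.sum_comm]
        simp only [← Finset.sum_mul]
        have hone : ∀ T, ∑ U, kosMat (zC k n B) S U * kosMat (ρ ε) T U =
            (if S = T then 1 else 0) - ∑ U, kosMat (ρ ε) U S * kosMat (zC k n B) U T := by
          intro T
          have h := congrFun (congrFun (kos_homotopy (zC k n B) (ρ ε)) S) T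
          rw [show ∑ a, zC k n B a * ρ ε a = 1 from hρ1 ε, one_smul, Matrix.add_apply,
            Matrix.mul_apply, Matrix.mul_apply, Matrix.one_apply] at h
          simp only [Matrix.transpose_apply] at h
          rw [← h]
          ring
        simp only [hone, sub_mul, Finset.sum_sub_distrib, Finset.sum_mul]
        rw [Finset.sum_comm (f := fun T U =>
          kosMat (ρ ε) U S * kosMat (zC k n B) U T * x T (some ε))]
        simp only [mul_assoc, ← Finset.mul_sum, hdx, mul_zero, Finset.sum_const_zero, sub_zero,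
          ite_mul, one_mul, zero_mul, Finset.sum_ite_eq, Finset.mem_univ, if_true, sub_self]

/-! ### Projection to the empty Koszul index -/

variable (k n) in
/-- The projection to the empty index. -/
def toS : (Finset (Fin (n + 1)) → Cov n → Coef k n) →ₗ[k] (Cov n → Coef k n) :=
  LinearMap.proj ∅

theorem cmap_toS (B : ℕ) (t : ℤ) :
    CMap (wDiff k n B) (sliceDiff k n) (toS k n) (wX k B c t) (sliceC k c t)
      (-((n + 1 : ℕ) : ℤ)) where
  comm f _ := by
    show wD k n B f ∅ = delta k (Coef k n) (f ∅)
    rw [wD_eq, Finset.sum_eq_zero fun U _ => by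
      rw [kosMat_eq_zero (by simp), zero_smul], zero_add]
    simp [sgnS]
  deg j f hf e he := hf ∅ e (by simp only [Finset.card_empty, Nat.sub_zero]; omega)
  maps f hf := mem_sliceC.2 fun e => by simpa [toS] using mem_wX.1 hf ∅ e

theorem toS_surj (B : ℕ) (t j : ℤ) (x : Cov n → Coef k n) (hx : x ∈ sliceC k c t)
    (hj : x ∈ (sliceDiff k n).deg (j + -((n + 1 : ℕ) : ℤ))) :
    ∃ f ∈ wX k B c t, f ∈ (wDiff k n B).deg j ∧ toS k n f = x := by
  refine ⟨fun S => if S = ∅ then x else 0, mem_wX.2 fun S e => ?_, fun S e he => ?_, ?_⟩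
  · show (if S = ∅ then x else 0) e ∈ _
    split_ifs with h
    · subst h
      simpa using mem_sliceC.1 hx e
    · exact Submodule.zero_mem _
  · show (if S = ∅ then x else 0) e = 0
    split_ifs with h
    · subst h
      exact hj e (by simp only [Finset.card_empty, Nat.sub_zero] at he; omega)
    · rfl
  · simp [toS]

/-- The part with a nonempty index is acyclic when its rows are exact. -/
theorem toS_acyclic (B : ℕ) (t : ℤ)
    (ht : ∀ S : Finset (Fin (n + 1)), S ≠ ∅ → ∀ a, 0 < t + ((B * S.card : ℕ) : ℤ) + c a) :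
    Acyclic (wDiff k n B) (wX k B c t ⊓ LinearMap.ker (toS k n)) := by
  classical
  have hst : (wDiff k n B).Stable (wX k B c t ⊓ LinearMap.ker (toS k n)) := by
    rintro f ⟨hf, hf0⟩
    refine ⟨wX_stable B t f hf, LinearMap.mem_ker.2 ?_⟩
    rw [(cmap_toS B t).comm f hf, LinearMap.mem_ker.1 hf0, map_zero]
  let L : ℕ → Submodule k (Finset (Fin (n + 1)) → Cov n → Coef k n) := fun m =>
    { carrier := {f | ∀ S : Finset (Fin (n + 1)), S.card < m → f S = 0}
      add_mem' := fun {f g} hf hg S h => by simp [hf S h, hg S h]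
      zero_mem' := fun S _ => rfl
      smul_mem' := fun r f hf S h => by simp [hf S h] }
  refine acyclic_of_levels hst L (n + 2) (fun f _ S h => absurd h (Nat.not_lt_zero _))
    (fun f _ hf => funext fun S => hf S (by have := card_add_one_le S; omega)) ?_
  rintro m j x ⟨hx, hx0⟩ hj hL hd
  have hx0' : x ∅ = 0 := LinearMap.mem_ker.1 hx0
  have key : ∀ S : Finset (Fin (n + 1)), S.card = m → ∃ y ∈ sliceC k c (t + ((B * S.card : ℕ) : ℤ)),
      y ∈ (sliceDiff k n).deg (j - ((n + 1 - S.card : ℕ) : ℤ) + 1) ∧
        delta k (Coef k n) y = x S := by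
    intro S hS
    by_cases h : S = ∅
    · exact ⟨0, Submodule.zero_mem _, Submodule.zero_mem _, by rw [h, hx0', map_zero]⟩
    refine slice_acyclic k n c _ (fun a => ht S h a) _ (x S) (fun e => mem_wX.1 hx S e)
      (fun e he => hj S e (by omega)) ?_
    have h0 : wD k n B x S = 0 := congrFun hd S
    rw [wD_eq, Finset.sum_eq_zero fun U _ => by
      by_cases h : kosMat (zC k n B) S U = 0
      · rw [h, zero_smul]
      · rw [hL U (by have := kosMat_ne_zero_card h; omega), smul_zero], zero_add] at h0
    exact (smul_eq_zero.1 h0).resolve_left (by simp [sgnS])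
  choose! y hy1 hy2 hy3 using key
  let y' : Finset (Fin (n + 1)) → Cov n → Coef k n := fun S =>
    if S.card = m then (if S = ∅ then 0 else sgnS k S • y S) else 0
  refine ⟨y', ⟨mem_wX.2 fun S e => ?_, LinearMap.mem_ker.2 ?_⟩, fun S e he => ?_, fun S hS => ?_⟩
  · show (y' S) e ∈ _
    simp only [y']
    split_ifs with h1 h2
    · exact Submodule.zero_mem _
    · exact Submodule.smul_mem _ _ (mem_sliceC.1 (hy1 S h1) e)
    · exact Submodule.zero_mem _
  · show y' ∅ = 0
    simp only [y']
    split_ifs <;> rfl
  · show (y' S) e = 0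
    simp only [y']
    split_ifs with h1 h2
    · rfl
    · rw [Pi.smul_apply, hy2 S h1 e (by omega), smul_zero]
    · rfl
  · show x S - wD k n B y' S = 0
    rw [wD_eq, Finset.sum_eq_zero fun U _ => by
      by_cases h : kosMat (zC k n B) S U = 0
      · rw [h, zero_smul]
      · simp only [y']
        rw [if_neg (by have := kosMat_ne_zero_card h; omega), smul_zero], zero_add]
    by_cases h1 : S.card = m
    · simp only [y', if_pos h1]
      split_ifs with h2
      · simp [h2, hx0']
      · rw [map_smul, smul_smul, hy3 S h1, sgnS, ← pow_add, ← two_mul, pow_mul]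
        simp
    · simp only [y', if_neg h1, map_zero, smul_zero, sub_zero]
      exact hL S (by omega)

/-! ### Transition -/

variable (k n) in
/-- The transition factor of an index. -/
def tauC (B B' : ℕ) (S : Finset (Fin (n + 1))) : Coef k n := ∏ a ∈ S, esym k n a ^ (B' - B)

theorem tauC_comm {B B' : ℕ} (h : B ≤ B') (T S : Finset (Fin (n + 1))) :
    kosMat (zC k n B') T S * tauC k n B B' S = tauC k n B B' T * kosMat (zC k n B) T S := by
  refine kosMat_rescale _ _ (fun a => esym k n a ^ (B' - B)) (fun a => ?_) _ (fun a S ha => ?_) T S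
  · simp only [zC, ← pow_add]
    congr 1
    omega
  · rw [tauC, Finset.prod_insert ha, mul_comm]
    rfl

theorem tauC_mul_mem {B B' : ℕ} (h : B ≤ B') {t : ℤ} (e : Cov n) (S : Finset (Fin (n + 1)))
    {f : Coef k n} (hf : f ∈ compC k c (t + ((B * S.card : ℕ) : ℤ)) e) :
    tauC k n B B' S * f ∈ compC k c (t + ((B' * S.card : ℕ) : ℤ)) e := by
  suffices key : ∀ (U : Finset (Fin (n + 1))) (s : ℤ), ∀ g ∈ compC k c s e,
      tauC k n B B' U * g ∈ compC k c (s + (((B' - B) * U.card : ℕ) : ℤ)) e by
    have := key S _ f hf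
    rwa [show t + ((B * S.card : ℕ) : ℤ) + (((B' - B) * S.card : ℕ) : ℤ) =
      t + ((B' * S.card : ℕ) : ℤ) by push_cast [Nat.cast_sub h]; ring] at this
  intro U
  induction U using Finset.induction with
  | empty => intro s g hg; simpa [tauC] using hg
  | insert a U ha ih =>
    intro s g hg
    rw [tauC, Finset.prod_insert ha, mul_assoc, Finset.card_insert_of_notMem ha,
      show s + (((B' - B) * (U.card + 1) : ℕ) : ℤ) =
        s + (((B' - B) * U.card : ℕ) : ℤ) + ((B' - B : ℕ) : ℤ) by push_cast; ring]
    exact esym_pow_mul_mem e _ _ (ih s g hg)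

variable (k n) in
/-- The transition on the Koszul complex. -/
def tauP (B B' : ℕ) : (Finset (Fin (n + 1)) → Coef k n) →ₗ[k] (Finset (Fin (n + 1)) → Coef k n) :=
  LinearMap.pi fun S => (LinearMap.mulLeft k (tauC k n B B' S)).comp (LinearMap.proj S)

variable (k n) in
/-- The transition on the double complex. -/
def tauW (B B' : ℕ) : (Finset (Fin (n + 1)) → Cov n → Coef k n) →ₗ[k]
    (Finset (Fin (n + 1)) → Cov n → Coef k n) :=
  LinearMap.pi fun S => LinearMap.pi fun e =>
    (LinearMap.mulLeft k (tauC k n B B' S)).comp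
      ((LinearMap.proj (R := k) (φ := fun _ : Cov n => Coef k n) e).comp (LinearMap.proj S))

theorem cmap_tauP {B B' : ℕ} (h : B ≤ B') (t : ℤ) :
    CMap ((pCx k n B).diff (Coef k n) k) ((pCx k n B').diff (Coef k n) k) (tauP k n B B')
      (pX k B c t) (pX k B' c t) 0 where
  comm f _ := by
    refine funext fun (S : Finset (Fin (n + 1))) => ?_
    show tauC k n B B' S * ∑ U, kosMat (zC k n B) S U * f U =
      ∑ U, kosMat (zC k n B') S U * (tauC k n B B' U * f U)
    simp only [Finset.mul_sum, ← mul_assoc, tauC_comm h]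
  deg j f hf := fun (S : Finset (Fin (n + 1))) hS => by
    show tauC k n B B' S * f S = 0
    have h' : ((n + 1 - S.card : ℕ) : ℤ) ≠ j + 0 := hS
    rw [hf S (show ((n + 1 - S.card : ℕ) : ℤ) ≠ j by omega), mul_zero]
  maps f hf S _ := mem_compC_none.1 (tauC_mul_mem h none S (hf S (Set.mem_univ S)))

theorem cmap_tauW {B B' : ℕ} (h : B ≤ B') (t : ℤ) :
    CMap (wDiff k n B) (wDiff k n B') (tauW k n B B') (wX k B c t) (wX k B' c t) 0 where
  comm f _ := by
    funext S e
    show tauC k n B B' S * wD k n B f S e = wD k n B' (tauW k n B B' f) S e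
    have h1 : delta k (Coef k n) (tauW k n B B' f S) e =
        tauC k n B B' S * delta k (Coef k n) (f S) e := by
      rw [show tauW k n B B' f S = tauC k n B B' S • f S from rfl, delta_smul_coef]
      rfl
    rw [wD_apply, wD_apply, h1, mul_add, Finset.mul_sum, mul_smul_comm]
    congr 1
    refine Finset.sum_congr rfl fun U _ => ?_
    show _ = kosMat (zC k n B') S U * (tauC k n B B' U * f U e)
    rw [← mul_assoc, ← mul_assoc, tauC_comm h]
  deg j f hf S e he := by
    show tauC k n B B' S * f S e = 0
    rw [hf S e (by simpa using he), mul_zero]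
  maps f hf := mem_wX.2 fun S e => tauC_mul_mem h e S (mem_wX.1 hf S e)

theorem toP_tau (B B' : ℕ) (f : Finset (Fin (n + 1)) → Cov n → Coef k n) :
    toP k n (tauW k n B B' f) = tauP k n B B' (toP k n f) := rfl

theorem toS_tau (B B' : ℕ) (f : Finset (Fin (n + 1)) → Cov n → Coef k n) :
    toS k n (tauW k n B B' f) = toS k n f := by
  funext e
  show tauC k n B B' ∅ * f ∅ e = f ∅ e
  simp [tauC]

end Vale.Agent.P202.Mixed.Slice
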