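import Vale.Agent.P202.Mixed.Slice.AugRes
import Vale.Agent.P202.Mixed.Slice.Double

/-!
# P202 mixed characteristic: slices of a resolution of the sections

The augmentation compares the resolution tensored with the Koszul complex with the sections in
Laurent form, hence with the slices.
-/

noncomputable section

namespace Vale.Agent.P202.Mixed.Slice

open Finset Segre

universe u

variable {k : Type u} [Field k] {n : ℕ} {c : Fin n → ℤ}
  {G : FreeCx (MvPolynomial (Fin (n + 1)) k)} {deg : G.ι → ℤ} {w : G.ι → Lau k n}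

variable (k n) in
/-- The powers of the variables. -/
def zP (B : ℕ) : Fin (n + 1) → MvPolynomial (Fin (n + 1)) k := fun a => MvPolynomial.X a ^ B

theorem aev_kosMat (B : ℕ) (T S : Finset (Fin (n + 1))) :
    aev k n (kosMat (zP k n B) T S) = kosMat (zC k n B) T S := by
  show (aev k n).toRingHom (kosMat (zP k n B) T S) = _
  rw [map_kosMat]
  congr 2
  funext a
  simp [zP, zC, aev, esR_eq_esym]

variable (G) in
/-- The tensor product with the Koszul complex. -/
abbrev tCx (B : ℕ) : FreeCx (MvPolynomial (Fin (n + 1)) k) := G.tensor (kosCx (zP k n B))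

theorem tCx_apply (B : ℕ) (f : G.ι × Finset (Fin (n + 1)) → MvPolynomial (Fin (n + 1)) k)
    (h : G.ι) (S : Finset (Fin (n + 1))) :
    (tCx G B).dA (MvPolynomial (Fin (n + 1)) k) f (h, S) =
      (∑ g, G.mat h g * f (g, S)) + G.sgn h * ∑ U, kosMat (zP k n B) S U * f (h, U) := by
  show ∑ q : G.ι × Finset (Fin (n + 1)), ((if S = q.2 then G.mat h q.1 else 0) +
    (if h = q.1 then G.sgn h * kosMat (zP k n B) S q.2 else 0)) * f q = _
  simp only [add_mul, ite_mul, zero_mul, Finset.sum_add_distrib]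
  rw [Fintype.sum_prod_type, Fintype.sum_prod_type]
  simp [Finset.mul_sum, mul_assoc]

variable (G deg) in
/-- The degrees of the tensor product. -/
def tDeg (B : ℕ) (q : G.ι × Finset (Fin (n + 1))) : ℤ := deg q.1 + zKosLev B q.2

variable (G deg) in
/-- The degree `t` part of the tensor product. -/
abbrev tX (B : ℕ) (t : ℤ) :
    Submodule k (G.ι × Finset (Fin (n + 1)) → MvPolynomial (Fin (n + 1)) k) :=
  degPiece k (tDeg G deg B) t

theorem mem_tX {B : ℕ} {t : ℤ}
    {f : G.ι × Finset (Fin (n + 1)) → MvPolynomial (Fin (n + 1)) k} :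
    f ∈ tX G deg B t ↔
      ∀ S, (fun g => f (g, S)) ∈ degPiece k deg (t + ((B * S.card : ℕ) : ℤ)) := by
  simp only [tX, mem_degPiece, tDeg, zKosLev, Prod.forall]
  constructor
  · intro h S g
    rw [show t + ((B * S.card : ℕ) : ℤ) - deg g = t - (deg g + -((B * S.card : ℕ) : ℤ)) by ring]
    exact h g S
  · intro h g S
    rw [show t - (deg g + -((B * S.card : ℕ) : ℤ)) = t + ((B * S.card : ℕ) : ℤ) - deg g by ring]
    exact h S g

theorem zP_mem (B : ℕ) (a : Fin (n + 1)) : zP k n B a ∈ homInt k (n + 1) (B : ℤ) := by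
  induction B with
  | zero => simpa [zP] using one_mem_homInt (A := k) (d := n + 1)
  | succ B ih =>
    have := homInt_mul ih (X_mem_homInt (A := k) a)
    simpa [zP, pow_succ] using this

theorem IsAugRes.tX_stable (hG : IsAugRes c G deg w) (B : ℕ) (t : ℤ) :
    ((tCx G B).diff (MvPolynomial (Fin (n + 1)) k) k).Stable (tX G deg B t) := by
  refine fun (f : G.ι × Finset (Fin (n + 1)) → MvPolynomial (Fin (n + 1)) k) hf0 => ?_
  have hf := mem_tX.1 hf0
  refine mem_tX.2 fun S => ?_
  rw [mem_degPiece]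
  intro h
  show (tCx G B).dA _ f (h, S) ∈ _
  rw [tCx_apply]
  refine Submodule.add_mem _ ?_ ?_
  · exact mem_degPiece.1 (hG.stable _ _ (hf S)) h
  · rw [Finset.mul_sum]
    refine Submodule.sum_mem _ fun U _ => ?_
    rw [kosMat_apply, Finset.sum_mul, Finset.mul_sum]
    refine Submodule.sum_mem _ fun a _ => ?_
    split_ifs with hh
    · have h1 := homInt_mul (zP_mem (k := k) B a) (mem_degPiece.1 (hf U) h)
      rw [hh.2, Finset.card_insert_of_notMem hh.1,
        show t + ((B * (U.card + 1) : ℕ) : ℤ) - deg h =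
          (B : ℤ) + (t + ((B * U.card : ℕ) : ℤ) - deg h) by push_cast; ring]
      rw [zsmul_eq_mul, mul_assoc, ← zsmul_eq_mul, FreeCx.sgn]
      rcases neg_one_pow_eq_or (MvPolynomial (Fin (n + 1)) k) (G.pos h) with e | e <;> rw [e]
      · rw [one_mul]; exact zsmul_mem h1 _
      · rw [neg_one_mul]; exact neg_mem (zsmul_mem h1 _)
    · simp

variable (G w) in
/-- The augmentation of the tensor product. -/
def psi : (G.ι × Finset (Fin (n + 1)) → MvPolynomial (Fin (n + 1)) k) →ₗ[k]
    (Finset (Fin (n + 1)) → Coef k n) :=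
  LinearMap.pi fun S => (augL w).comp
    (LinearMap.funLeft k (MvPolynomial (Fin (n + 1)) k) fun g => (g, S))

theorem psi_apply (f : G.ι × Finset (Fin (n + 1)) → MvPolynomial (Fin (n + 1)) k)
    (S : Finset (Fin (n + 1))) : psi G w f S = ∑ g, aev k n (f (g, S)) * w g :=
  augL_apply w fun g => f (g, S)

theorem IsAugRes.cmap_psi (hG : IsAugRes c G deg w) (B : ℕ) (t : ℤ) :
    CMap ((tCx G B).diff (MvPolynomial (Fin (n + 1)) k) k) ((pCx k n B).diff (Coef k n) k)
      (psi G w) (tX G deg B t) (pX k B c t) 0 where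
  comm := fun (f : G.ι × Finset (Fin (n + 1)) → MvPolynomial (Fin (n + 1)) k) _ => by
    refine funext fun (S : Finset (Fin (n + 1))) => ?_
    refine (psi_apply _ S).trans ?_
    show _ = ∑ U, kosMat (zC k n B) S U * psi G w f U
    refine (Finset.sum_congr rfl fun g _ => congrArg (fun v => aev k n v * w g)
      (tCx_apply B f g S)).trans ?_
    simp only [psi_apply, map_add, add_mul, Finset.sum_add_distrib]
    have h0 := hG.aug_dA fun g => f (g, S)
    simp only [augL_apply, FreeCx.dA_apply, smul_eq_mul] at h0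
    rw [h0, zero_add]
    simp only [map_mul, map_sum, Finset.mul_sum, Finset.sum_mul, aev_kosMat]
    rw [Finset.sum_comm]
    refine Finset.sum_congr rfl fun U _ => Finset.sum_congr rfl fun h _ => ?_
    by_cases hh : G.pos h = 0
    · rw [FreeCx.sgn, hh, pow_zero, map_one, one_mul, mul_assoc]
    · rw [hG.w_zero h hh, mul_zero, mul_zero, mul_zero]
  deg j := fun (f : G.ι × Finset (Fin (n + 1)) → MvPolynomial (Fin (n + 1)) k) hf =>
    fun (S : Finset (Fin (n + 1))) hS => by
    have h' : ((n + 1 - S.card : ℕ) : ℤ) ≠ j + 0 := hS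
    refine (psi_apply _ S).trans (Finset.sum_eq_zero fun g _ => ?_)
    by_cases hg : G.pos g = 0
    · have h0 : f (g, S) = 0 :=
        hf (g, S) (show ((G.pos g + (n + 1 - S.card) : ℕ) : ℤ) ≠ j by push_cast; omega)
      rw [h0, map_zero, zero_mul]
    · rw [hG.w_zero g hg, mul_zero]
  maps f hf S _ := by
    show augL w (fun g => f (g, S)) ∈ sec k c (t + ((B * S.card : ℕ) : ℤ))
    exact hG.aug_mem (mem_tX.1 hf S)

theorem IsAugRes.psi_surj (hG : IsAugRes c G deg w) (B : ℕ) (t j : ℤ)
    (x : Finset (Fin (n + 1)) → Coef k n) (hx : x ∈ pX k B c t)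
    (hj : x ∈ ((pCx k n B).diff (Coef k n) k).deg (j + 0)) :
    ∃ f ∈ tX G deg B t, f ∈ ((tCx G B).diff (MvPolynomial (Fin (n + 1)) k) k).deg j ∧
      psi G w f = x := by
  choose z hz1 hz2 hz3 using fun S : Finset (Fin (n + 1)) => hG.surj _ _ (hx S (Set.mem_univ S))
  refine ⟨fun q => if ((n + 1 - q.2.card : ℕ) : ℤ) = j then z q.2 q.1 else 0,
    mem_tX.2 fun S => mem_degPiece.2 fun g => ?_, fun q hq => ?_, funext fun S => ?_⟩
  · show (if _ then _ else _) ∈ _
    split_ifs
    · exact mem_degPiece.1 (hz1 S) g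
    · exact Submodule.zero_mem _
  · show (if _ then _ else _) = _
    split_ifs with h
    · have hq' : ((G.pos q.1 + (n + 1 - q.2.card) : ℕ) : ℤ) ≠ j := hq
      exact hz2 q.2 q.1 (by push_cast at hq'; omega)
    · rfl
  · rw [psi_apply]
    by_cases h : ((n + 1 - S.card : ℕ) : ℤ) = j
    · simp only [if_pos h]
      rw [← augL_apply w (z S)]
      exact hz3 S
    · simp only [if_neg h, map_zero, zero_mul, Finset.sum_const_zero]
      exact (hj S (show ((n + 1 - S.card : ℕ) : ℤ) ≠ j + 0 by simpa using h)).symm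

theorem IsAugRes.psi_acyclic (hG : IsAugRes c G deg w) (B : ℕ) (t : ℤ) :
    Acyclic ((tCx G B).diff (MvPolynomial (Fin (n + 1)) k) k)
      (tX G deg B t ⊓ LinearMap.ker (psi G w)) := by
  classical
  have hst : ((tCx G B).diff (MvPolynomial (Fin (n + 1)) k) k).Stable
      (tX G deg B t ⊓ LinearMap.ker (psi G w)) := by
    rintro f ⟨hf, hf0⟩
    refine ⟨hG.tX_stable B t f hf, LinearMap.mem_ker.2 ?_⟩
    exact ((hG.cmap_psi B t).comm f hf).trans
      ((congrArg _ (LinearMap.mem_ker.1 hf0)).trans (map_zero _))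
  let L : ℕ → Submodule k (G.ι × Finset (Fin (n + 1)) → MvPolynomial (Fin (n + 1)) k) := fun m =>
    { carrier := {f | ∀ g (S : Finset (Fin (n + 1))), S.card < m → f (g, S) = 0}
      add_mem' := fun {f g} hf hg a S h => by simp [hf a S h, hg a S h]
      zero_mem' := fun a S _ => rfl
      smul_mem' := fun r f hf a S h => by simp [hf a S h] }
  refine acyclic_of_levels hst L (n + 2) (fun f _ g S h => absurd h (Nat.not_lt_zero _))
    (fun f _ hf => funext fun q => hf q.1 q.2 (by have := card_add_one_le q.2; omega)) ?_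
  rintro m j (x : G.ι × Finset (Fin (n + 1)) → MvPolynomial (Fin (n + 1)) k) ⟨hx, hx0⟩ hj hL hd
  have key : ∀ S : Finset (Fin (n + 1)), S.card = m → ∃ y ∈ degPiece k deg (t + ((B * S.card : ℕ) : ℤ)),
      y ∈ (G.diff (MvPolynomial (Fin (n + 1)) k) k).deg (j - ((n + 1 - S.card : ℕ) : ℤ) + 1) ∧
        G.dA (MvPolynomial (Fin (n + 1)) k) y = (fun g => x (g, S)) ∧ augL w y = 0 := by
    intro S hS
    refine hG.exact' _ _ _ (mem_tX.1 hx S) (fun g hg => ?_) (funext fun h => ?_) ?_
    · refine hj (g, S) ?_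
      show ((G.pos g + (n + 1 - S.card) : ℕ) : ℤ) ≠ j
      push_cast
      omega
    · have h0 := (tCx_apply B x h S).symm.trans (congrFun hd (h, S))
      rw [Finset.sum_eq_zero (f := fun U => kosMat (zP k n B) S U * x (h, U))
        fun U _ => by
          by_cases hU : kosMat (zP k n B) S U = 0
          · rw [hU, zero_mul]
          · rw [hL h U (by have := kosMat_ne_zero_card hU; omega), mul_zero],
        mul_zero, add_zero] at h0
      exact h0
    · exact (augL_apply w _).trans
        ((psi_apply x S).symm.trans (congrFun (LinearMap.mem_ker.1 hx0) S))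
  choose! y hy1 hy2 hy3 hy4 using key
  let y' : G.ι × Finset (Fin (n + 1)) → MvPolynomial (Fin (n + 1)) k := fun q =>
    if q.2.card = m then y q.2 q.1 else 0
  refine ⟨y', ⟨mem_tX.2 fun S => mem_degPiece.2 fun g => ?_,
    LinearMap.mem_ker.2 (funext fun (S : Finset (Fin (n + 1))) => (psi_apply y' S).trans ?_)⟩,
    fun q hq => ?_, fun h S hS => ?_⟩
  · show y' (g, S) ∈ _
    simp only [y']
    split_ifs with h
    · exact mem_degPiece.1 (hy1 S h) g
    · exact Submodule.zero_mem _
  · simp only [y']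
    by_cases h : S.card = m
    · simp only [if_pos h]
      exact (augL_apply w _).symm.trans (hy4 S h)
    · simp [if_neg h]
  · simp only [y']
    split_ifs with h
    · refine hy2 q.2 h q.1 ?_
      have hq' : ((G.pos q.1 + (n + 1 - q.2.card) : ℕ) : ℤ) ≠ j + 1 := hq
      push_cast at hq'
      omega
    · rfl
  · show x (h, S) - (tCx G B).dA _ y' (h, S) = 0
    rw [tCx_apply, Finset.sum_eq_zero (f := fun U => kosMat (zP k n B) S U * y' (h, U))
      fun U _ => by
        by_cases hU : kosMat (zP k n B) S U = 0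
        · rw [hU, zero_mul]
        · simp only [y']
          rw [if_neg (by have := kosMat_ne_zero_card hU; omega), mul_zero],
      mul_zero, add_zero]
    by_cases h1 : S.card = m
    · simp only [y', if_pos h1]
      have := congrFun (hy3 S h1) h
      rw [FreeCx.dA_apply] at this
      simp only [smul_eq_mul] at this
      rw [this, sub_self]
    · simp only [y', if_neg h1, mul_zero, Finset.sum_const_zero, sub_zero]
      exact hL h S (by omega)

/-! ### Transition -/

variable (G) in
/-- The transition on the tensor product. -/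
def tauT (B B' : ℕ) : (G.ι × Finset (Fin (n + 1)) → MvPolynomial (Fin (n + 1)) k) →ₗ[k]
    (G.ι × Finset (Fin (n + 1)) → MvPolynomial (Fin (n + 1)) k) :=
  LinearMap.pi fun q => (LinearMap.mulLeft k (tauScalar k B B' q.2)).comp (LinearMap.proj q)

theorem aev_tauScalar (B B' : ℕ) (S : Finset (Fin (n + 1))) :
    aev k n (tauScalar k B B' S) = tauC k n B B' S := by
  simp [tauScalar, tauC, map_prod, map_pow, aev, esR_eq_esym]

theorem psi_tau (B B' : ℕ) (f : G.ι × Finset (Fin (n + 1)) → MvPolynomial (Fin (n + 1)) k) :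
    psi G w (tauT G B B' f) = tauP k n B B' (psi G w f) := by
  funext S
  show _ = tauC k n B B' S * psi G w f S
  rw [psi_apply, psi_apply, Finset.mul_sum]
  refine Finset.sum_congr rfl fun g _ => ?_
  show aev k n (tauScalar k B B' S * f (g, S)) * w g = _
  rw [map_mul, aev_tauScalar, mul_assoc]

theorem cmap_tauT {B B' : ℕ} (h : B ≤ B') (t : ℤ) :
    CMap ((tCx G B).diff (MvPolynomial (Fin (n + 1)) k) k)
      ((tCx G B').diff (MvPolynomial (Fin (n + 1)) k) k) (tauT G B B')
      (tX G deg B t) (tX G deg B' t) 0 where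
  comm := fun (f : G.ι × Finset (Fin (n + 1)) → MvPolynomial (Fin (n + 1)) k) _ => by
    refine funext fun (q : G.ι × Finset (Fin (n + 1))) => ?_
    obtain ⟨g, S⟩ := q
    show tauScalar k B B' S * (tCx G B).dA _ f (g, S) = (tCx G B').dA _ (tauT G B B' f) (g, S)
    have hτ : ∀ U, kosMat (zP k n B') S U * tauScalar k B B' U =
        tauScalar k B B' S * kosMat (zP k n B) S U := fun U =>
      kosMat_rescale _ _ (fun a => MvPolynomial.X a ^ (B' - B)) (fun a => by
          simp only [zP, ← pow_add]; congr 1; omega)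
        _ (fun a T ha => by rw [tauScalar, Finset.prod_insert ha, mul_comm]; rfl) S U
    rw [tCx_apply, tCx_apply, mul_add, Finset.mul_sum]
    refine congrArg₂ (· + ·) (Finset.sum_congr rfl fun a _ => ?_) ?_
    · show _ = G.mat g a * (tauScalar k B B' S * f (a, S))
      ring
    · show _ = G.sgn g * ∑ U, kosMat (zP k n B') S U * (tauScalar k B B' U * f (g, U))
      simp only [← mul_assoc (kosMat _ _ _), hτ, Finset.mul_sum]
      exact Finset.sum_congr rfl fun U _ => by ring
  deg j f hf q hq := by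
    show tauScalar k B B' q.2 * f q = 0
    have hq' : ((G.pos q.1 + (n + 1 - q.2.card) : ℕ) : ℤ) ≠ j + 0 := hq
    rw [hf q (show ((G.pos q.1 + (n + 1 - q.2.card) : ℕ) : ℤ) ≠ j by omega), mul_zero]
  maps f hf := mem_tX.2 fun S => mem_degPiece.2 fun g => by
    have h1 : tauScalar k B B' S ∈ homInt k (n + 1) (((B' - B) * S.card : ℕ) : ℤ) := by
      rw [tauScalar]
      induction S using Finset.induction with
      | empty => simpa using one_mem_homInt (A := k) (d := n + 1)
      | insert a T ha ih =>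
        rw [Finset.prod_insert ha, Finset.card_insert_of_notMem ha,
          show (((B' - B) * (T.card + 1) : ℕ) : ℤ) =
            ((B' - B : ℕ) : ℤ) + (((B' - B) * T.card : ℕ) : ℤ) by push_cast; ring]
        exact homInt_mul (zP_mem (B' - B) a) ih
    have h2 := homInt_mul h1 (mem_degPiece.1 (mem_tX.1 hf S) g)
    rwa [show (((B' - B) * S.card : ℕ) : ℤ) + (t + ((B * S.card : ℕ) : ℤ) - deg g) =
      t + ((B' * S.card : ℕ) : ℤ) - deg g by push_cast [Nat.cast_sub h]; ring] at h2

/-! ### Conclusion -/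

/-- From here on the rows are exact. -/
def B₀c (c : Fin n → ℤ) : ℕ := (∑ a, |c a|).toNat + 1

theorem rows_pos {B : ℕ} (_hB : B₀c c ≤ B) {t : ℤ} (ht : -(B : ℤ) + B₀c c ≤ t)
    (S : Finset (Fin (n + 1))) (hS : S ≠ ∅) (a : Fin n) :
    0 < t + ((B * S.card : ℕ) : ℤ) + c a := by
  have h1 : |c a| ≤ ∑ a, |c a| :=
    Finset.single_le_sum (f := fun a => |c a|) (fun b _ => abs_nonneg (c b)) (mem_univ a)
  have h2 := neg_abs_le (c a)
  have h3 : B ≤ B * S.card := Nat.le_mul_of_pos_right _ (Finset.card_pos.2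
    (Finset.nonempty_iff_ne_empty.2 hS))
  unfold B₀c at ht
  push_cast at ht
  omega

theorem IsAugRes.betti_tensor (hG : IsAugRes c G deg w) {B : ℕ} (hB : B₀c c ≤ B) {t : ℤ}
    (ht : -(B : ℤ) + B₀c c ≤ t) (j : ℤ) :
    ((tCx G B).diff (MvPolynomial (Fin (n + 1)) k) k).betti (tX G deg B t) ⊥
      (j + ((n + 1 : ℕ) : ℤ)) = sliceDim c t j := by
  set J := j + ((n + 1 : ℕ) : ℤ)
  rw [betti_eq_of_bijective (hG.cmap_psi B t)
      ((hG.cmap_psi B t).hmap_bijective (hG.tX_stable B t) (hG.psi_surj B t) (hG.psi_acyclic B t) J),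
    add_zero]
  have h1 := betti_eq_of_bijective (cmap_toP (k := k) (c := c) B t)
    ((cmap_toP B t).hmap_bijective (wX_stable B t) (toP_surj B t) (toP_acyclic B t) J)
  rw [add_zero] at h1
  rw [← h1, betti_eq_of_bijective (cmap_toS B t)
    ((cmap_toS B t).hmap_bijective (wX_stable B t) (toS_surj B t)
      (toS_acyclic B t (rows_pos hB ht)) J), slice_betti]
  congr 1
  simp only [J]
  ring

theorem cmap_id (t : ℤ) :
    CMap (sliceDiff k n) (sliceDiff k n) LinearMap.id (sliceC k c t) (sliceC k c t) 0 where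
  comm _ _ := rfl
  deg j x hx := by simpa using hx
  maps _ hx := hx

theorem IsAugRes.rank_tensor (hG : IsAugRes c G deg w) {B B' : ℕ} (hB : B₀c c ≤ B) (hBB : B ≤ B')
    {t : ℤ} (ht : -(B : ℤ) + B₀c c ≤ t) (j : ℤ) :
    Module.finrank k ↥(((((tCx G B).diff (MvPolynomial (Fin (n + 1)) k) k).cycles
      (tX G deg B t) ⊥ (j + ((n + 1 : ℕ) : ℤ))).map (tauT G B B')).map
        ((((tCx G B').diff (MvPolynomial (Fin (n + 1)) k) k).bdries (tX G deg B' t) ⊥
          (j + ((n + 1 : ℕ) : ℤ))).mkQ)) = sliceDim c t j := by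
  set J := j + ((n + 1 : ℕ) : ℤ)
  have hB' : B₀c c ≤ B' := hB.trans hBB
  have ht' : -(B' : ℤ) + B₀c c ≤ t := le_trans (by omega) ht
  refine (rank_transport (hG.cmap_psi B t) (hG.cmap_psi B' t) (cmap_tauT hBB t) (cmap_tauP hBB t)
    (fun x _ => psi_tau B B' x)
    ((hG.cmap_psi B t).hmap_bijective (hG.tX_stable B t) (hG.psi_surj B t) (hG.psi_acyclic B t) J)
    ((hG.cmap_psi B' t).hmap_bijective (hG.tX_stable B' t) (hG.psi_surj B' t)
      (hG.psi_acyclic B' t) J)).trans ?_
  rw [add_zero J]
  have hP := rank_transport (cmap_toP (k := k) (c := c) B t) (cmap_toP B' t) (cmap_tauW hBB t)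
    (cmap_tauP hBB t) (fun x _ => toP_tau B B' x)
    ((cmap_toP B t).hmap_bijective (wX_stable B t) (toP_surj B t) (toP_acyclic B t) J)
    ((cmap_toP B' t).hmap_bijective (wX_stable B' t) (toP_surj B' t) (toP_acyclic B' t) J)
  rw [add_zero J] at hP
  refine hP.symm.trans ?_
  refine (rank_transport (cmap_toS (k := k) (c := c) B t) (cmap_toS B' t) (cmap_tauW hBB t)
    (cmap_id t) (fun x _ => toS_tau B B' x)
    ((cmap_toS B t).hmap_bijective (wX_stable B t) (toS_surj B t)
      (toS_acyclic B t (rows_pos hB ht)) J)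
    ((cmap_toS B' t).hmap_bijective (wX_stable B' t) (toS_surj B' t)
      (toS_acyclic B' t (rows_pos hB' ht')) J)).trans ?_
  have hJ : J + -((n + 1 : ℕ) : ℤ) = j := by simp only [J]; ring
  rw [hJ, ← (cmap_id (k := k) (c := c) t).rank_eq j j (add_zero j)]
  have hbij : Function.Surjective ((cmap_id (k := k) (c := c) t).hmap j) := by
    refine ((cmap_id (k := k) (c := c) t).hmap_bijective
      (fun x hx => delta_mem_slice hx) (fun i x hx hi => ⟨x, hx, by simpa using hi, rfl⟩)
      ?_ j).2
    intro i x hx hi hd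
    exact ⟨0, Submodule.zero_mem _, Submodule.zero_mem _, by
      simpa using (LinearMap.mem_ker.1 hx.2).symm⟩
  rw [LinearMap.range_eq_top.2 hbij, finrank_top, ← slice_betti k n c t j]
  show (sliceDiff k n).betti (sliceC k c t) ⊥ (j + 0) = _
  rw [add_zero]

end Vale.Agent.P202.Mixed.Slice
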