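import Vale.Agent.P202.Mixed.Interface
import Vale.Agent.P202.HomAlg.Coef
import Vale.Agent.P202.Mixed.Slice.Tensor
import Vale.Agent.P202.Mixed.Slice.BaseChange
import Vale.Agent.P202.Mixed.Slice.Resolution

/-!
# P202 mixed characteristic: slice complexes exist for all shifts

The complex is built over the localisation of `ℤ` at the residue characteristic and mapped to the
local ring; over the residue field it resolves the sections.
-/

noncomputable section

namespace Vale.Agent.P202.Mixed.Slice

open Finset IsLocalRing

universe v u

section Compare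

variable {A : Type v} [CommRing A] {k₀ : Type v} [Field k₀] {φ : A →+* k₀} {R : Type u}
  [CommRing R] [IsLocalRing R] {f : A →+* R} {ψ : k₀ →+* ResidueField R}
  (hψ : ∀ a, residue R (f a) = ψ (φ a)) {d : ℕ} (G : FreeCx (MvPolynomial (Fin d) A))

include hψ in
theorem residue_map (q : MvPolynomial (Fin d) A) :
    polyResidue R d (MvPolynomial.map f q) = MvPolynomial.map ψ (MvPolynomial.map φ q) := by
  simp only [polyResidue, MvPolynomial.map_map]
  exact congrArg (MvPolynomial.map · q) (RingHom.ext hψ)

include hψ in
theorem diff_eq_baseChange :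
    ((G.map (MvPolynomial.map f)).map (polyResidue R d)).diff
        (MvPolynomial (Fin d) (ResidueField R)) (ResidueField R) =
      ((G.map (MvPolynomial.map φ)).map (MvPolynomial.map ψ)).diff
        (MvPolynomial (Fin d) (ResidueField R)) (ResidueField R) := by
  refine FreeCx.diff_ext _ _ (LinearMap.ext fun x => funext fun h => ?_) rfl
  show ∑ g, polyResidue R d (MvPolynomial.map f (G.mat h g)) * x g =
    ∑ g, MvPolynomial.map ψ (MvPolynomial.map φ (G.mat h g)) * x g
  simp only [residue_map hψ]

include hψ in
theorem diff_tensor_eq {n : ℕ} (G : FreeCx (MvPolynomial (Fin (n + 1)) A)) (B : ℕ) :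
    (((G.map (MvPolynomial.map f)).tensor (zKos R (n + 1) B)).map (polyResidue R (n + 1))).diff
        (MvPolynomial (Fin (n + 1)) (ResidueField R)) (ResidueField R) =
      (tCx ((G.map (MvPolynomial.map φ)).map (MvPolynomial.map ψ)) B).diff
        (MvPolynomial (Fin (n + 1)) (ResidueField R)) (ResidueField R) := by
  refine FreeCx.diff_ext _ _ (LinearMap.ext fun
    (x : G.ι × Finset (Fin (n + 1)) → MvPolynomial (Fin (n + 1)) (ResidueField R)) =>
      funext fun (q : G.ι × Finset (Fin (n + 1))) => ?_) rfl
  show ∑ r : G.ι × Finset (Fin (n + 1)), polyResidue R (n + 1)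
      ((if q.2 = r.2 then MvPolynomial.map f (G.mat q.1 r.1) else 0) +
        (if q.1 = r.1 then (-1) ^ G.pos q.1 *
          kosMat (fun a => (MvPolynomial.X a : Rz R (n + 1)) ^ B) q.2 r.2 else 0)) * x r =
    ∑ r : G.ι × Finset (Fin (n + 1)),
      ((if q.2 = r.2 then MvPolynomial.map ψ (MvPolynomial.map φ (G.mat q.1 r.1)) else 0) +
        (if q.1 = r.1 then (-1) ^ G.pos q.1 * kosMat (zP (ResidueField R) n B) q.2 r.2 else 0)) * x r
  refine Finset.sum_congr rfl fun r _ => ?_
  congr 1
  have hk : polyResidue R (n + 1) (kosMat (fun a => (MvPolynomial.X a : Rz R (n + 1)) ^ B) q.2 r.2) =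
      kosMat (zP (ResidueField R) n B) q.2 r.2 := by
    rw [map_kosMat]
    congr 2
    funext a
    simp [zP, polyResidue]
  simp only [map_add, apply_ite (polyResidue R (n + 1)), map_zero, map_mul, map_pow, map_neg,
    map_one, residue_map hψ, hk]

end Compare

/-- Slice complexes exist for all shifts. -/
theorem sliceStatement : SliceStatement.{u} := by
  intro R _ _ n c hn
  let P : Ideal ℤ := Ideal.comap (Int.castRingHom R) (maximalIdeal R)
  let A := Localization.AtPrime P
  have hunit : ∀ y : P.primeCompl, IsUnit (Int.castRingHom R y) := fun y =>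
    IsLocalRing.notMem_maximalIdeal.1 y.2
  let f : A →+* R := IsLocalization.lift hunit
  obtain ⟨g, hg⟩ := IsPrincipalIdealRing.principal P
  let p : A := algebraMap ℤ A g
  have hmax : maximalIdeal A = Ideal.span {p} := by
    rw [← Localization.AtPrime.map_eq_maximalIdeal]
    refine (congrArg (Ideal.map (algebraMap ℤ A)) hg).trans ?_
    rw [Ideal.submodule_span_eq, Ideal.map_span, Set.image_singleton]
  have hdom : IsDomain A := IsLocalization.isDomain_of_le_nonZeroDivisors A
    P.primeCompl_le_nonZeroDivisors
  have hnoe : IsNoetherianRing A := IsLocalization.isNoetherianRing P.primeCompl A inferInstance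
  let φ : A →+* ResidueField A := residue A
  have hp : φ p = 0 := by
    rw [residue_eq_zero_iff, hmax]
    exact Ideal.mem_span_singleton_self p
  have hker : ∀ a, φ a = 0 → p ∣ a := fun a ha => by
    rw [residue_eq_zero_iff, hmax, Ideal.mem_span_singleton] at ha
    exact ha
  have hgR : residue R (f p) = 0 := by
    rw [show f p = Int.castRingHom R g from IsLocalization.lift_eq hunit g, residue_eq_zero_iff]
    show g ∈ P
    rw [hg]
    exact Ideal.mem_span_singleton_self g
  let ψ : ResidueField A →+* ResidueField R :=
    Ideal.Quotient.lift (maximalIdeal A) ((residue R).comp f) fun a ha => by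
      rw [hmax, Ideal.mem_span_singleton] at ha
      obtain ⟨b, rfl⟩ := ha
      rw [map_mul, RingHom.comp_apply, hgR, zero_mul]
  have hψ : ∀ a, residue R (f a) = ψ (φ a) := fun a =>
    (Ideal.Quotient.lift_mk (maximalIdeal A) ((residue R).comp f) _).symm
  obtain ⟨G, deg, w, hhom, hres⟩ :=
    exists_resolution (φ := φ) residue_surjective hp hker hn c
  have hk := hres.baseChange ψ
  exact
    ⟨{ F := G.map (MvPolynomial.map f)
       deg := deg
       homog := fun h g => map_mem_homInt f (hhom h g)
       euler := hk.euler
       resolves := fun t j => by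
        rw [diff_eq_baseChange hψ G]
        exact hk.betti_eq t j
       B₀ := B₀c c
       slices := fun B hB t ht j => by
        rw [diff_tensor_eq hψ G B]
        exact hk.betti_tensor hB ht j
       transition := fun B B' hB hBB t ht j => by
        rw [diff_tensor_eq hψ G B, diff_tensor_eq hψ G B']
        exact hk.rank_tensor hB hBB ht j }⟩

end Vale.Agent.P202.Mixed.Slice
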