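import Vale.Agent.P202.Mixed.Slice.Sections

/-!
# P202 mixed characteristic: resolutions of the sections

A graded free complex with an exact augmentation to the sections computes them in position `0`,
and its signed rank is `n!`.
-/

noncomputable section

namespace Vale.Agent.P202.Mixed.Slice

open Finset Segre

universe u

variable {k : Type u} [Field k] {n : ℕ}


/-- The augmentation attached to sections `w`. -/
def augL {ι : Type} [Fintype ι] (w : ι → Lau k n) : (ι → (MvPolynomial (Fin (n + 1)) k)) →ₗ[k] Lau k n :=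
  ∑ g, (LinearMap.mulRight k (w g)).comp ((aev k n).toLinearMap.comp (LinearMap.proj g))

theorem augL_apply {ι : Type} [Fintype ι] (w : ι → Lau k n) (f : ι → (MvPolynomial (Fin (n + 1)) k)) :
    augL w f = ∑ g, aev k n (f g) * w g := by simp [augL]

theorem mem_degPiece {d : ℕ} {ι : Type} {deg : ι → ℤ} {t : ℤ}
    {f : ι → MvPolynomial (Fin d) k} :
    f ∈ degPiece k deg t ↔ ∀ g, f g ∈ homInt k d (t - deg g) := by simp [degPiece]

/-- Exact augmented graded free complexes over the sections with shifts `c`. -/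
structure IsAugRes (c : Fin n → ℤ) (G : FreeCx (MvPolynomial (Fin (n + 1)) k)) (deg : G.ι → ℤ) (w : G.ι → Lau k n) : Prop where
  homog : ∀ h g, G.mat h g ∈ homInt k (n + 1) (deg g - deg h)
  w_mem : ∀ g, w g ∈ sec k c (deg g)
  w_zero : ∀ g, G.pos g ≠ 0 → w g = 0
  aug_d : ∀ g, ∑ h, aev k n (G.mat h g) * w h = 0
  exact : ∀ t i, ∀ z ∈ degPiece k deg t, z ∈ (G.diff (MvPolynomial (Fin (n + 1)) k) k).deg i → G.dA (MvPolynomial (Fin (n + 1)) k) z = 0 → augL w z = 0 →
    ∃ y ∈ degPiece k deg t, y ∈ (G.diff (MvPolynomial (Fin (n + 1)) k) k).deg (i + 1) ∧ G.dA (MvPolynomial (Fin (n + 1)) k) y = z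
  surj : ∀ t, ∀ x ∈ sec k c t, ∃ z ∈ degPiece k deg t, z ∈ (G.diff (MvPolynomial (Fin (n + 1)) k) k).deg 0 ∧ augL w z = x

variable {c : Fin n → ℤ} {G : FreeCx (MvPolynomial (Fin (n + 1)) k)} {deg : G.ι → ℤ} {w : G.ι → Lau k n}

namespace IsAugRes

variable (hG : IsAugRes c G deg w)
include hG

theorem stable (t : ℤ) : (G.diff (MvPolynomial (Fin (n + 1)) k) k).Stable (degPiece k deg t) := by
  intro f hf
  rw [mem_degPiece] at hf ⊢
  intro h
  show G.dA (MvPolynomial (Fin (n + 1)) k) f h ∈ _
  rw [FreeCx.dA_apply]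
  refine Submodule.sum_mem _ fun g _ => ?_
  rw [smul_eq_mul, show t - deg h = (deg g - deg h) + (t - deg g) by ring]
  exact homInt_mul (hG.homog h g) (hf g)

theorem aug_dA (f : G.ι → (MvPolynomial (Fin (n + 1)) k)) : augL w (G.dA (MvPolynomial (Fin (n + 1)) k) f) = 0 := by
  simp only [augL_apply, FreeCx.dA_apply, smul_eq_mul, map_sum, map_mul, Finset.sum_mul]
  rw [Finset.sum_comm]
  refine Finset.sum_eq_zero fun g _ => ?_
  rw [Finset.sum_congr rfl fun h _ => mul_right_comm _ _ _, ← Finset.sum_mul, hG.aug_d g, zero_mul]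

theorem aug_mem {t : ℤ} {f : G.ι → (MvPolynomial (Fin (n + 1)) k)} (hf : f ∈ degPiece k deg t) : augL w f ∈ sec k c t := by
  rw [augL_apply]
  refine Submodule.sum_mem _ fun g _ => ?_
  have := aev_mul_mem (mem_degPiece.1 hf g) (hG.w_mem g)
  rwa [add_sub_cancel] at this

theorem aug_zero_of_pos {i : ℤ} (hi : i ≠ 0) {f : G.ι → (MvPolynomial (Fin (n + 1)) k)} (hf : f ∈ (G.diff (MvPolynomial (Fin (n + 1)) k) k).deg i) :
    augL w f = 0 := by
  rw [augL_apply]
  refine Finset.sum_eq_zero fun g _ => ?_
  by_cases hg : G.pos g = 0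
  · rw [hf g (by omega), map_zero, zero_mul]
  · rw [hG.w_zero g hg, mul_zero]

/-- Cycles in the kernel of the augmentation are boundaries inside that kernel. -/
theorem exact' (t i : ℤ) (z : G.ι → (MvPolynomial (Fin (n + 1)) k)) (hz : z ∈ degPiece k deg t) (hi : z ∈ (G.diff (MvPolynomial (Fin (n + 1)) k) k).deg i)
    (hd : G.dA (MvPolynomial (Fin (n + 1)) k) z = 0) (ha : augL w z = 0) :
    ∃ y ∈ degPiece k deg t, y ∈ (G.diff (MvPolynomial (Fin (n + 1)) k) k).deg (i + 1) ∧ G.dA (MvPolynomial (Fin (n + 1)) k) y = z ∧ augL w y = 0 := by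
  by_cases h : i + 1 = 0
  · refine ⟨0, Submodule.zero_mem _, Submodule.zero_mem _, ?_, map_zero _⟩
    rw [map_zero]
    exact funext fun g => (hi g (by omega)).symm
  · obtain ⟨y, h1, h2, h3⟩ := hG.exact t i z hz hi hd ha
    exact ⟨y, h1, h2, h3, hG.aug_zero_of_pos h h2⟩

theorem acyclic_ker (t : ℤ) :
    Acyclic (G.diff (MvPolynomial (Fin (n + 1)) k) k) (degPiece k deg t ⊓ LinearMap.ker (augL w)) := by
  rintro j x ⟨hx, hx0⟩ hj hd
  obtain ⟨y, h1, h2, h3, h4⟩ := hG.exact' t j x hx hj hd (LinearMap.mem_ker.1 hx0)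
  exact ⟨y, ⟨h1, LinearMap.mem_ker.2 h4⟩, h2, h3⟩

end IsAugRes

variable (k n) in
/-- The sections as a complex concentrated in position `0`. -/
def secDiff : Diff k (Lau k n) where
  d := 0
  deg j := if j = 0 then ⊤ else ⊥
  d_d _ := rfl
  d_deg _ _ _ := Submodule.zero_mem _

variable (k) in
/-- The sections are functions on the box. -/
def secEquiv (c : Fin n → ℤ) (t : ℤ) : sec k c t ≃ₗ[k] (box c t → k) :=
  LinearEquiv.ofBijective
    ({ toFun := fun f α => (f : Lau k n).coeff α.1
       map_add' := fun f g => by funext α; simp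
       map_smul' := fun r f => by funext α; simp } : sec k c t →ₗ[k] (box c t → k))
    ⟨fun f g h => Subtype.ext (AddMonoidAlgebra.ext (Finsupp.ext fun α => by
        by_cases hα : α ∈ box c t
        · exact congrFun h ⟨α, hα⟩
        · have hf : (f : Lau k n).coeff α = 0 := by_contra fun h0 => hα (mem_box.2 (f.2 α h0))
          have hg : (g : Lau k n).coeff α = 0 := by_contra fun h0 => hα (mem_box.2 (g.2 α h0))
          rw [hf, hg])),
      fun v => ⟨⟨∑ α : box c t, AddMonoidAlgebra.single α.1 (v α),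
        Submodule.sum_mem _ fun α _ => single_mem_sec (mem_box.1 α.2) _⟩, funext fun α => by
          simp [AddMonoidAlgebra.coeff_sum, AddMonoidAlgebra.coeff_single, Finsupp.single_apply]⟩⟩

theorem finrank_sec (c : Fin n → ℤ) (t : ℤ) :
    Module.finrank k (sec k c t) = sectionDim c t 0 := by
  rw [(secEquiv k c t).finrank_eq, Module.finrank_pi, Fintype.card_coe, box,
    Fintype.card_piFinset, sectionDim]
  split_ifs with h
  · rw [show (∏ a, (t + c a)).natAbs = ∏ a, (t + c a).natAbs from map_prod Int.natAbsHom _ _]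
    refine Finset.prod_congr rfl fun a _ => ?_
    have := h.2 a
    simp only [Int.card_Icc]
    omega
  · simp only [true_and, not_forall, not_le] at h
    obtain ⟨a, ha⟩ := h
    refine Finset.prod_eq_zero (Finset.mem_univ a) ?_
    simp only [Int.card_Icc]
    omega

theorem secDiff_betti (c : Fin n → ℤ) (t j : ℤ) :
    (secDiff k n).betti (sec k c t) ⊥ j = sectionDim c t j := by
  have hb : (secDiff k n).bdries (sec k c t) ⊥ j = ⊥ := by
    simp [Diff.bdries, secDiff]
  rw [Diff.betti]
  rw [(Submodule.quotEquivOfEqBot _ (by rw [hb]; exact Submodule.ker_subtype _)).finrank_eq]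
  by_cases hj : j = 0
  · subst hj
    rw [← finrank_sec c t (k := k)]
    refine (LinearEquiv.ofEq _ _ ?_).finrank_eq
    simp [Diff.cycles, secDiff]
  · rw [show (secDiff k n).cycles (sec k c t) ⊥ j = ⊥ by simp [Diff.cycles, secDiff, hj]]
    simp [sectionDim, hj]

/-- The complex resolves the sections. -/
theorem IsAugRes.betti_eq (hG : IsAugRes c G deg w) (t j : ℤ) :
    (G.diff (MvPolynomial (Fin (n + 1)) k) k).betti (degPiece k deg t) ⊥ j = sectionDim c t j := by
  have hm : CMap (G.diff (MvPolynomial (Fin (n + 1)) k) k) (secDiff k n) (augL w) (degPiece k deg t) (sec k c t) 0 :=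
    ⟨fun x _ => hG.aug_dA x, fun i x hx => by
        by_cases hi : i = 0
        · simp [secDiff, hi]
        · rw [hG.aug_zero_of_pos hi hx]; exact Submodule.zero_mem _,
      fun x hx => hG.aug_mem hx⟩
  have hb := hm.hmap_bijective (hG.stable t) (fun i x hx hi => ?_) (hG.acyclic_ker t) j
  · rw [betti_eq_of_bijective hm hb, add_zero, secDiff_betti]
  · by_cases h0 : i + 0 = 0
    · obtain rfl : i = 0 := by omega
      exact hG.surj t x hx
    · simp only [secDiff, if_neg h0, Submodule.mem_bot] at hi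
      exact ⟨0, Submodule.zero_mem _, Submodule.zero_mem _, by rw [map_zero, hi]⟩

/-! ### The signed rank -/

/-- Exponents of an integer degree. -/
def expSet (d : ℕ) (e : ℤ) : Finset (Fin d →₀ ℕ) :=
  if 0 ≤ e then Finset.univ.finsuppAntidiag e.toNat else ∅

theorem mem_expSet {d : ℕ} {e : ℤ} {s : Fin d →₀ ℕ} :
    s ∈ expSet d e ↔ ((Finsupp.degree s : ℕ) : ℤ) = e := by
  unfold expSet
  split_ifs with he
  · rw [Finset.mem_finsuppAntidiag, and_iff_left (Finset.subset_univ _), Finsupp.degree_eq_sum]
    change (∑ i, s i) = _ ↔ ((∑ i, s i : ℕ) : ℤ) = e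
    have := Int.toNat_of_nonneg he
    constructor <;> intro h <;> omega
  · simp only [Finset.notMem_empty, false_iff]
    intro h
    exact he (h ▸ Int.natCast_nonneg _)

variable (k) in
/-- Homogeneous polynomials are functions on their exponents. -/
def homIntEquiv (d : ℕ) (e : ℤ) : homInt k d e ≃ₗ[k] (expSet d e → k) :=
  LinearEquiv.ofBijective
    ({ toFun := fun q s => MvPolynomial.coeff s.1 (q : MvPolynomial (Fin d) k)
       map_add' := fun f g => by funext s; simp
       map_smul' := fun r f => by funext s; simp } : homInt k d e →ₗ[k] (expSet d e → k))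
    ⟨fun f g h => Subtype.ext (MvPolynomial.ext _ _ fun s => by
        by_cases hs : s ∈ expSet d e
        · exact congrFun h ⟨s, hs⟩
        · have hf := not_imp_comm.1 (mem_homInt_iff.1 f.2 s) fun h0 => hs (mem_expSet.2 h0)
          have hg := not_imp_comm.1 (mem_homInt_iff.1 g.2 s) fun h0 => hs (mem_expSet.2 h0)
          rw [hf, hg]),
      fun v => ⟨⟨∑ s : expSet d e, MvPolynomial.monomial s.1 (v s), mem_homInt_iff.2 fun s hs => by
          classical
          simp only [MvPolynomial.coeff_sum, MvPolynomial.coeff_monomial] at hs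
          obtain ⟨x, -, hx⟩ := Finset.exists_ne_zero_of_sum_ne_zero hs
          split_ifs at hx with h
          · exact h ▸ mem_expSet.1 x.2
          · exact absurd rfl hx⟩, funext fun s => by
          classical
          simp [MvPolynomial.coeff_sum, MvPolynomial.coeff_monomial]⟩⟩

theorem card_expSet (e : ℤ) (he : 0 ≤ e) : ((expSet (n + 1) e).card : ℤ) * n.factorial =
    ∏ i : Fin n, (e + (i.val + 1 : ℕ)) := by
  rw [expSet, if_pos he, Finset.card_finsuppAntidiag_nat_eq_choose, Finset.card_univ,
    Fintype.card_fin, show n + 1 + e.toNat - 1 = e.toNat + n by omega, Nat.choose_symm_add,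
    mul_comm, ← Nat.cast_mul, ← Nat.ascFactorial_eq_factorial_mul_choose, Nat.ascFactorial_eq_prod_range,
    Nat.cast_prod, Fin.prod_univ_eq_prod_range (fun i => e + ((i + 1 : ℕ) : ℤ))]
  exact Finset.prod_congr rfl fun i _ => by push_cast; omega

theorem finrank_degPiece_deg (t i : ℤ) :
    Module.finrank k ↥(degPiece k deg t ⊓ (G.diff (MvPolynomial (Fin (n + 1)) k) k).deg i) =
      ∑ g ∈ univ.filter (fun g => (G.pos g : ℤ) = i), (expSet (n + 1) (t - deg g)).card := by
  let S := univ.filter (fun g => (G.pos g : ℤ) = i)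
  have : ∀ g : S, Module.Finite k (homInt k (n + 1) (t - deg g.1)) := fun g =>
    Module.Finite.equiv (homIntEquiv k _ _).symm
  let E : ↥(degPiece k deg t ⊓ (G.diff (MvPolynomial (Fin (n + 1)) k) k).deg i) ≃ₗ[k]
      ((g : S) → homInt k (n + 1) (t - deg g.1)) :=
    { toFun := fun f g => ⟨f.1 g.1, mem_degPiece.1 f.2.1 g.1⟩
      map_add' := fun f f' => rfl
      map_smul' := fun r f => rfl
      invFun := fun v => ⟨fun g => if hg : g ∈ S then (v ⟨g, hg⟩).1 else 0,
        mem_degPiece.2 fun g => by
          split_ifs with hg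
          · exact (v ⟨g, hg⟩).2
          · exact Submodule.zero_mem _,
        fun g hg => dif_neg (show g ∉ S from fun h => hg (Finset.mem_filter.1 h).2)⟩
      left_inv := fun f => Subtype.ext (funext fun g => by
        show (if hg : g ∈ S then f.1 g else 0) = f.1 g
        split_ifs with hg
        · rfl
        · exact (f.2.2 g fun h => hg (Finset.mem_filter.2 ⟨mem_univ _, h⟩)).symm)
      right_inv := fun v => funext fun g => Subtype.ext (dif_pos g.2) }
  rw [E.finrank_eq, Module.finrank_pi_fintype]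
  simp only [fun g : S => (homIntEquiv k (n + 1) (t - deg g.1)).finrank_eq, Module.finrank_pi,
    Fintype.card_coe]
  exact Finset.sum_coe_sort S fun g => (expSet (n + 1) (t - deg g)).card

omit [Field k] in
theorem sum_telescope (b : ℕ → ℤ) (C : ℕ → ℤ) (B : ℤ) (hb0 : b 0 = 0)
    (h0 : C 0 = b 0 + b 1 + B) (hC : ∀ i, 1 ≤ i → C i = b i + b (i + 1)) :
    ∀ N, ∑ i ∈ Finset.range (N + 1), (-1 : ℤ) ^ i * C i = B + (-1) ^ N * b (N + 1)
  | 0 => by simp [h0, hb0]; ring
  | N + 1 => by
    rw [Finset.sum_range_succ, sum_telescope b C B hb0 h0 hC N, hC (N + 1) (by omega), pow_succ]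
    ring

theorem IsAugRes.finrank_chain (hG : IsAugRes c G deg w) (t i : ℤ) :
    Module.finrank k ↥(degPiece k deg t ⊓ (G.diff (MvPolynomial (Fin (n + 1)) k) k).deg i) =
      Module.finrank k ↥((degPiece k deg t ⊓ (G.diff (MvPolynomial (Fin (n + 1)) k) k).deg i).map (G.diff (MvPolynomial (Fin (n + 1)) k) k).d) +
        Module.finrank k ↥((degPiece k deg t ⊓ (G.diff (MvPolynomial (Fin (n + 1)) k) k).deg (i + 1)).map (G.diff (MvPolynomial (Fin (n + 1)) k) k).d) +
        sectionDim c t i := by
  set D := G.diff (MvPolynomial (Fin (n + 1)) k) k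
  have hfin : ∀ i, Module.Finite k ↥(degPiece (d := n + 1) k deg t ⊓ D.deg i) := by
    intro i
    have : FiniteDimensional k ↥(degPiece (d := n + 1) k deg t) := by
      have : ∀ g, Module.Finite k (homInt k (n + 1) (t - deg g)) := fun g =>
        Module.Finite.equiv (homIntEquiv k _ _).symm
      exact Module.Finite.of_injective (M := ↥(degPiece (d := n + 1) k deg t))
        (LinearMap.pi fun g => ((LinearMap.proj g).comp (degPiece k deg t).subtype).codRestrict
          (homInt k (n + 1) (t - deg g)) fun f => mem_degPiece.1 f.2 g)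
        fun a b h => Subtype.ext (funext fun g => congrArg Subtype.val (congrFun h g))
    exact Submodule.finiteDimensional_inf_left _ _
  have := hfin i
  rw [← hG.betti_eq t i]
  have hsum := LinearMap.finrank_range_add_finrank_ker
    (D.d.domRestrict (degPiece k deg t ⊓ D.deg i))
  rw [LinearMap.range_domRestrict] at hsum
  have hcyc : Module.finrank k (LinearMap.ker (D.d.domRestrict (degPiece k deg t ⊓ D.deg i))) =
      Module.finrank k (D.cycles (degPiece k deg t) ⊥ i) := by
    rw [LinearMap.ker_domRestrict, (Submodule.equivSubtypeMap _ _).finrank_eq,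
      Submodule.map_comap_subtype]
    rfl
  have hcf : Module.Finite k (D.cycles (degPiece k deg t) ⊥ i) :=
    Submodule.finiteDimensional_of_le (inf_le_left : D.cycles (degPiece k deg t) ⊥ i ≤ _)
  have hq := Submodule.finrank_quotient_add_finrank
    ((D.bdries (degPiece k deg t) ⊥ i).comap (D.cycles (degPiece k deg t) ⊥ i).subtype)
  have hle : D.bdries (degPiece k deg t) ⊥ i ≤ D.cycles (degPiece k deg t) ⊥ i := by
    intro x hx
    obtain ⟨y, hy, hy', rfl⟩ := mem_bdries_bot.1 hx
    have := D.d_deg _ y hy'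
    rw [add_sub_cancel_right] at this
    exact ⟨⟨hG.stable t y hy, this⟩, by simp [D.d_d]⟩
  rw [(Submodule.comapSubtypeEquivOfLe hle).finrank_eq] at hq
  have hbd : D.bdries (degPiece k deg t) ⊥ i = (degPiece k deg t ⊓ D.deg (i + 1)).map D.d := by
    simp [Diff.bdries]
  rw [← hbd]
  show _ = _ + _ + D.betti (degPiece k deg t) ⊥ i
  refine hsum.symm.trans ?_
  rw [hcyc, ← hq]
  unfold Diff.betti
  ring

/-- The signed rank is the leading coefficient of the Hilbert polynomial. -/
theorem IsAugRes.euler (hG : IsAugRes c G deg w) :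
    ∑ g : G.ι, (-1 : ℤ) ^ G.pos g = (n.factorial : ℤ) := by
  classical
  let p : G.ι → Polynomial ℤ := fun g =>
    ∏ i : Fin n, (Polynomial.X + Polynomial.C ((i.val + 1 : ℕ) - deg g))
  let q : Polynomial ℤ := ∏ a : Fin n, (Polynomial.X + Polynomial.C (c a))
  have hlead : ∀ (v : Fin n → ℤ), (∏ i, (Polynomial.X + Polynomial.C (v i))).coeff n = 1 := by
    intro v
    have hm : (∏ i, (Polynomial.X + Polynomial.C (v i))).Monic :=
      Polynomial.monic_prod_of_monic _ _ fun i _ => Polynomial.monic_X_add_C _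
    have hd : (∏ i, (Polynomial.X + Polynomial.C (v i))).natDegree = n := by
      rw [Polynomial.natDegree_prod_of_monic _ _ fun i _ => Polynomial.monic_X_add_C _]
      rw [Finset.sum_congr rfl fun i _ => Polynomial.natDegree_X_add_C (v i)]
      simp
    have := hm.coeff_natDegree
    rwa [hd] at this
  have hev : ∀ t : ℤ, (∑ g, |deg g|) + (∑ a, |c a|) ≤ t →
      (∑ g, Polynomial.C ((-1 : ℤ) ^ G.pos g) * p g).eval t =
        (Polynomial.C (n.factorial : ℤ) * q).eval t := by
    intro t ht
    have hg : ∀ g, 0 ≤ t - deg g := fun g => by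
      have h1 : |deg g| ≤ ∑ g, |deg g| := Finset.single_le_sum
        (f := fun g => |deg g|) (fun b _ => abs_nonneg (deg b)) (mem_univ g)
      have h2 : 0 ≤ ∑ a, |c a| := Finset.sum_nonneg fun b _ => abs_nonneg _
      have := le_abs_self (deg g)
      omega
    have hc : ∀ a, 0 ≤ t + c a := fun a => by
      have h1 : |c a| ≤ ∑ a, |c a| := Finset.single_le_sum
        (f := fun a => |c a|) (fun b _ => abs_nonneg (c b)) (mem_univ a)
      have h2 : 0 ≤ ∑ g, |deg g| := Finset.sum_nonneg fun b _ => abs_nonneg _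
      have := neg_abs_le (c a)
      omega
    let L := Finset.univ.sup G.pos
    let C : ℕ → ℤ := fun i => (Module.finrank k ↥(degPiece k deg t ⊓ (G.diff (MvPolynomial (Fin (n + 1)) k) k).deg i) : ℤ)
    let b : ℕ → ℤ := fun i =>
      (Module.finrank k ↥((degPiece k deg t ⊓ (G.diff (MvPolynomial (Fin (n + 1)) k) k).deg i).map (G.diff (MvPolynomial (Fin (n + 1)) k) k).d) : ℤ)
    have hb0 : b 0 = 0 := by
      have : (degPiece k deg t ⊓ (G.diff (MvPolynomial (Fin (n + 1)) k) k).deg (0 : ℕ)).map (G.diff (MvPolynomial (Fin (n + 1)) k) k).d = ⊥ := by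
        rw [eq_bot_iff]
        rintro _ ⟨x, hx, rfl⟩
        have := (G.diff (MvPolynomial (Fin (n + 1)) k) k).d_deg _ x hx.2
        exact (Submodule.mem_bot k).2 (funext fun g => this g (by omega))
      simp only [b]
      rw [this, finrank_bot]
      rfl
    have htop : b (L + 1) = 0 := by
      have : (degPiece k deg t ⊓ (G.diff (MvPolynomial (Fin (n + 1)) k) k).deg ((L + 1 : ℕ) : ℤ)).map (G.diff (MvPolynomial (Fin (n + 1)) k) k).d = ⊥ := by
        rw [eq_bot_iff]
        rintro _ ⟨x, hx, rfl⟩
        have hx0 : x = 0 := funext fun g => hx.2 g (by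
          have := Finset.le_sup (f := G.pos) (mem_univ g); omega)
        simp [hx0]
      simp only [b]
      rw [this, finrank_bot]
      rfl
    have htel := sum_telescope b C (sectionDim c t 0) hb0 (by
        have := hG.finrank_chain t 0
        rw [show (0 : ℤ) + 1 = 1 from rfl] at this
        simp only [C, b]
        rw [show ((0 : ℕ) : ℤ) = 0 from rfl, show ((1 : ℕ) : ℤ) = 1 from rfl]
        omega) (fun i hi => by
        have := hG.finrank_chain t i
        rw [show sectionDim c t (i : ℤ) = 0 from if_neg fun h => by omega] at this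
        simp only [C, b]
        rw [show ((i + 1 : ℕ) : ℤ) = (i : ℤ) + 1 from Nat.cast_succ i]
        omega) L
    rw [htop, mul_zero, add_zero] at htel
    simp only [C, finrank_degPiece_deg (G := G) (deg := deg), Nat.cast_sum, Finset.mul_sum] at htel
    have hfib : ∑ i ∈ Finset.range (L + 1), ∑ g ∈ univ.filter (fun g => (G.pos g : ℤ) = i),
        (-1 : ℤ) ^ i * ((expSet (n + 1) (t - deg g)).card : ℤ) =
          ∑ g, (-1 : ℤ) ^ G.pos g * ((expSet (n + 1) (t - deg g)).card : ℤ) := by
      rw [← Finset.sum_fiberwise_of_maps_to (t := Finset.range (L + 1)) (g := G.pos)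
        (s := univ) fun g _ => Finset.mem_range.2
          (Nat.lt_succ_of_le (Finset.le_sup (f := G.pos) (mem_univ g)))]
      refine Finset.sum_congr rfl fun i _ => Finset.sum_congr (by simp) fun g hg => ?_
      rw [(Finset.mem_filter.1 hg).2]
    rw [hfib, sectionDim, if_pos ⟨rfl, hc⟩,
      Int.natAbs_of_nonneg (Finset.prod_nonneg fun a _ => hc a)] at htel
    simp only [Polynomial.eval_finsetSum, Polynomial.eval_mul, Polynomial.eval_C, p, q,
      Polynomial.eval_prod, Polynomial.eval_add, Polynomial.eval_X]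
    rw [← htel, Finset.mul_sum]
    refine Finset.sum_congr rfl fun g _ => ?_
    rw [mul_left_comm, mul_comm (n.factorial : ℤ), card_expSet _ (hg g)]
    congr 1
    exact Finset.prod_congr rfl fun i _ => by ring
  have heq : (∑ g, Polynomial.C ((-1 : ℤ) ^ G.pos g) * p g) =
      Polynomial.C (n.factorial : ℤ) * q :=
    Polynomial.eq_of_infinite_eval_eq _ _ ((Set.Ici_infinite _).mono fun t ht => hev t ht)
  have := congrArg (fun r : Polynomial ℤ => r.coeff n) heq
  simpa only [Polynomial.finsetSum_coeff, Polynomial.coeff_C_mul, p, q, hlead, mul_one] using this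

end Vale.Agent.P202.Mixed.Slice
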