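import Vale.Agent.P202.Base

/-!
# P202 mixed characteristic: diagram chases for differential modules

Acyclicity from levels, maps of complexes with acyclic kernel, and ranks of maps on homology.
-/

noncomputable section

namespace Vale.Agent.P202.Mixed.Slice

open Submodule

variable {k : Type*} [CommRing k] {M M' M₁ M₁' : Type*} [AddCommGroup M] [Module k M]
  [AddCommGroup M'] [Module k M'] [AddCommGroup M₁] [Module k M₁] [AddCommGroup M₁'] [Module k M₁']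

/-- Every cycle of `X` is the boundary of an element of `X`. -/
def Acyclic (D : Diff k M) (X : Submodule k M) : Prop :=
  ∀ j : ℤ, ∀ x ∈ X, x ∈ D.deg j → D.d x = 0 → ∃ y ∈ X, y ∈ D.deg (j + 1) ∧ D.d y = x

/-- Acyclicity from levels: a cycle in level `m` is a boundary modulo level `m + 1`. -/
theorem acyclic_of_levels {D : Diff k M} {X : Submodule k M} (hX : D.Stable X)
    (L : ℕ → Submodule k M) (N : ℕ) (h0 : X ≤ L 0) (hN : ∀ x ∈ X, x ∈ L N → x = 0)
    (step : ∀ (m : ℕ) (j : ℤ), ∀ x ∈ X, x ∈ D.deg j → x ∈ L m → D.d x = 0 →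
      ∃ y ∈ X, y ∈ D.deg (j + 1) ∧ x - D.d y ∈ L (m + 1)) : Acyclic D X := by
  intro j x hx hj hd
  suffices h : ∀ m, ∃ y ∈ X, y ∈ D.deg (j + 1) ∧ x - D.d y ∈ L m by
    obtain ⟨y, hy, hy', hl⟩ := h N
    exact ⟨y, hy, hy', (sub_eq_zero.1 (hN _ (X.sub_mem hx (hX y hy)) hl)).symm⟩
  intro m
  induction m with
  | zero => exact ⟨0, X.zero_mem, Submodule.zero_mem _, by simpa using h0 hx⟩
  | succ m ih =>
    obtain ⟨y, hy, hy', hl⟩ := ih
    have hdy : D.d y ∈ D.deg j := by simpa using D.d_deg _ y hy'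
    obtain ⟨z, hz, hz', hl'⟩ := step m j (x - D.d y) (X.sub_mem hx (hX y hy))
      (Submodule.sub_mem _ hj hdy) hl (by rw [map_sub, hd, D.d_d, sub_zero])
    exact ⟨y + z, X.add_mem hy hz, Submodule.add_mem _ hy' hz', by rwa [map_add, ← sub_sub]⟩

/-- A map of complexes shifting positions by `s`. -/
structure CMap (D : Diff k M) (D' : Diff k M') (φ : M →ₗ[k] M') (X : Submodule k M)
    (X' : Submodule k M') (s : ℤ) : Prop where
  comm : ∀ x ∈ X, φ (D.d x) = D'.d (φ x)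
  deg : ∀ j, ∀ x ∈ D.deg j, φ x ∈ D'.deg (j + s)
  maps : ∀ x ∈ X, φ x ∈ X'

variable {D : Diff k M} {D' : Diff k M'} {φ : M →ₗ[k] M'} {X : Submodule k M}
  {X' : Submodule k M'} {s : ℤ}

theorem CMap.cycle_mem (h : CMap D D' φ X X' s) (j : ℤ) :
    ∀ x ∈ D.cycles X ⊥ j, φ x ∈ D'.cycles X' ⊥ (j + s) := by
  rintro x ⟨⟨hx, hj⟩, hd⟩
  have hd0 : D.d x = 0 := by simpa using hd
  refine ⟨⟨h.maps x hx, h.deg j x hj⟩, ?_⟩
  show D'.d (φ x) ∈ (⊥ : Submodule k M')
  simp [← h.comm x hx, hd0]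

theorem mem_bdries_bot {x : M} {j : ℤ} :
    x ∈ D.bdries X ⊥ j ↔ ∃ w ∈ X, w ∈ D.deg (j + 1) ∧ D.d w = x := by
  simp [Diff.bdries, and_assoc]

/-- The map on homology. -/
def CMap.hmap (h : CMap D D' φ X X' s) (j : ℤ) : D.H X ⊥ j →ₗ[k] D'.H X' ⊥ (j + s) :=
  Submodule.mapQ _ _
    (LinearMap.codRestrict (D'.cycles X' ⊥ (j + s)) (φ.comp (D.cycles X ⊥ j).subtype)
      fun x => h.cycle_mem j _ x.2)
    fun x hx => by
      obtain ⟨w, hw, hw', e⟩ := mem_bdries_bot.1 hx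
      refine mem_bdries_bot.2 ⟨φ w, h.maps w hw, ?_, ?_⟩
      · rw [show j + s + 1 = j + 1 + s by ring]
        exact h.deg _ w hw'
      · show D'.d (φ w) = φ (x : M)
        rw [← h.comm w hw, e]
        rfl

theorem CMap.hmap_mk (h : CMap D D' φ X X' s) (j : ℤ) (x : D.cycles X ⊥ j) :
    h.hmap j (Submodule.Quotient.mk x) = Submodule.Quotient.mk ⟨φ x, h.cycle_mem j _ x.2⟩ := rfl

/-- A surjective map with acyclic kernel is bijective on homology. -/
theorem CMap.hmap_bijective (h : CMap D D' φ X X' s) (hX : D.Stable X)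
    (surj : ∀ j, ∀ x' ∈ X', x' ∈ D'.deg (j + s) → ∃ x ∈ X, x ∈ D.deg j ∧ φ x = x')
    (ker : Acyclic D (X ⊓ LinearMap.ker φ)) (j : ℤ) : Function.Bijective (h.hmap j) := by
  constructor
  · rw [injective_iff_map_eq_zero]
    intro ξ hξ
    obtain ⟨⟨x, ⟨hx, hj⟩, hd⟩, rfl⟩ := Submodule.Quotient.mk_surjective _ ξ
    have hd0 : D.d x = 0 := by simpa using hd
    rw [hmap_mk, Submodule.Quotient.mk_eq_zero] at hξ
    obtain ⟨w', hw, hw', e⟩ := mem_bdries_bot.1 hξ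
    rw [show j + s + 1 = j + 1 + s by ring] at hw'
    obtain ⟨w, h1, h2, rfl⟩ := surj _ w' hw hw'
    have hdw : D.d w ∈ D.deg j := by simpa using D.d_deg _ w h2
    obtain ⟨v, ⟨hv, -⟩, hv', ev⟩ := ker j (x - D.d w)
      ⟨X.sub_mem hx (hX w h1), LinearMap.mem_ker.2 (by rw [map_sub, h.comm w h1, e]; simp)⟩
      (Submodule.sub_mem _ hj hdw) (by rw [map_sub, hd0, D.d_d, sub_zero])
    rw [Submodule.Quotient.mk_eq_zero]
    exact mem_bdries_bot.2 ⟨w + v, X.add_mem h1 hv, Submodule.add_mem _ h2 hv', by simp [ev]⟩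
  · intro ξ
    obtain ⟨⟨x', ⟨hx', hj⟩, hd⟩, rfl⟩ := Submodule.Quotient.mk_surjective _ ξ
    have hd0 : D'.d x' = 0 := by simpa using hd
    obtain ⟨x, h1, h2, rfl⟩ := surj j x' hx' hj
    obtain ⟨v, ⟨hv, hv0⟩, hv', ev⟩ := ker (j - 1) (D.d x)
      ⟨hX x h1, LinearMap.mem_ker.2 (by rw [h.comm x h1, hd0])⟩ (D.d_deg j x h2) (D.d_d x)
    rw [show j - 1 + 1 = j by ring] at hv'
    refine ⟨Submodule.Quotient.mk ⟨x - v, ⟨X.sub_mem h1 hv, Submodule.sub_mem _ h2 hv'⟩, ?_⟩,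
      ?_⟩
    · show D.d (x - v) ∈ (⊥ : Submodule k M)
      simp [ev]
    · rw [hmap_mk]
      congr 1
      refine Subtype.ext ?_
      show φ (x - v) = φ x
      rw [map_sub, LinearMap.mem_ker.1 hv0, sub_zero]

theorem betti_eq_of_bijective (h : CMap D D' φ X X' s) {j : ℤ}
    (hb : Function.Bijective (h.hmap j)) : D.betti X ⊥ j = D'.betti X' ⊥ (j + s) :=
  (LinearEquiv.ofBijective _ hb).finrank_eq

/-- The rank on homology as the rank of the image of the cycles modulo boundaries. -/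
theorem CMap.rank_eq (h : CMap D D' φ X X' s) (j i : ℤ) (hi : j + s = i) :
    Module.finrank k (LinearMap.range (h.hmap j)) =
      Module.finrank k (((D.cycles X ⊥ j).map φ).map (D'.bdries X' ⊥ i).mkQ) := by
  subst hi
  set B := D'.bdries X' ⊥ (j + s)
  let ι : D'.H X' ⊥ (j + s) →ₗ[k] M' ⧸ B :=
    Submodule.mapQ _ _ (D'.cycles X' ⊥ (j + s)).subtype le_rfl
  have hι : Function.Injective ι := by
    rw [injective_iff_map_eq_zero]
    intro ξ hξ
    obtain ⟨x, rfl⟩ := Submodule.Quotient.mk_surjective _ ξ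
    simp only [ι, Submodule.mapQ_apply, Submodule.Quotient.mk_eq_zero] at hξ
    rw [Submodule.Quotient.mk_eq_zero]
    exact hξ
  have : (LinearMap.range (h.hmap j)).map ι = ((D.cycles X ⊥ j).map φ).map B.mkQ := by
    ext z
    constructor
    · rintro ⟨_, ⟨ξ, rfl⟩, rfl⟩
      obtain ⟨x, rfl⟩ := Submodule.Quotient.mk_surjective _ ξ
      exact ⟨φ x, ⟨x, x.2, rfl⟩, rfl⟩
    · rintro ⟨_, ⟨x, hx, rfl⟩, rfl⟩
      exact ⟨_, ⟨Submodule.Quotient.mk ⟨x, hx⟩, rfl⟩, rfl⟩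
  rw [← this]
  exact (Submodule.equivMapOfInjective ι hι _).finrank_eq

variable {E : Diff k M₁} {E' : Diff k M₁'} {ψ : M₁ →ₗ[k] M₁'} {Y : Submodule k M₁}
  {Y' : Submodule k M₁'} {f : M →ₗ[k] M₁} {g : M' →ₗ[k] M₁'}

/-- A commutative square with bijective verticals preserves ranks on homology. -/
theorem rank_transport (hf : CMap D E f X Y s) (hg : CMap D' E' g X' Y' s)
    (hφ : CMap D D' φ X X' 0) (hψ : CMap E E' ψ Y Y' 0)
    (comm : ∀ x ∈ X, g (φ x) = ψ (f x)) {j : ℤ}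
    (bf : Function.Bijective (hf.hmap j)) (bg : Function.Bijective (hg.hmap j)) :
    Module.finrank k (((D.cycles X ⊥ j).map φ).map (D'.bdries X' ⊥ j).mkQ) =
      Module.finrank k (((E.cycles Y ⊥ (j + s)).map ψ).map (E'.bdries Y' ⊥ (j + s)).mkQ) := by
  rw [← hφ.rank_eq j _ (add_zero j), ← hψ.rank_eq (j + s) _ (add_zero (j + s))]
  let c : ∀ i i' : ℤ, i = i' → D'.H X' ⊥ i ≃ₗ[k] D'.H X' ⊥ i' := fun _ _ e => e ▸ .refl k _
  let c' : ∀ i i' : ℤ, i = i' → E'.H Y' ⊥ i ≃ₗ[k] E'.H Y' ⊥ i' := fun _ _ e => e ▸ .refl k _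
  have hc : ∀ (i i' : ℤ) (e : i = i') (x : D'.cycles X' ⊥ i),
      c i i' e (Submodule.Quotient.mk x) = Submodule.Quotient.mk ⟨x.1, e ▸ x.2⟩ := by
    rintro i _ rfl x; rfl
  have hc' : ∀ (i i' : ℤ) (e : i = i') (x : E'.cycles Y' ⊥ i),
      c' i i' e (Submodule.Quotient.mk x) = Submodule.Quotient.mk ⟨x.1, e ▸ x.2⟩ := by
    rintro i _ rfl x; rfl
  let G := LinearEquiv.ofBijective _ bg
  let F := LinearEquiv.ofBijective _ bf
  let T := (c (j + 0) j (add_zero j)).trans (G.trans (c' _ _ (add_zero (j + s)).symm))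
  have sq : T.toLinearMap.comp (hφ.hmap j) = (hψ.hmap (j + s)).comp F.toLinearMap := by
    refine LinearMap.ext fun ξ => ?_
    obtain ⟨x, rfl⟩ := Submodule.Quotient.mk_surjective _ ξ
    simp only [T, G, F, LinearMap.comp_apply, LinearEquiv.coe_coe, LinearEquiv.trans_apply,
      LinearEquiv.ofBijective_apply, CMap.hmap_mk, hc, hc']
    congr 1
    exact Subtype.ext (comm _ x.2.1.1)
  have := congrArg LinearMap.range sq
  rw [LinearMap.range_comp, LinearMap.range_comp, LinearEquiv.range, Submodule.map_top] at this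
  rw [← this, LinearEquiv.finrank_map_eq]

end Vale.Agent.P202.Mixed.Slice
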