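import Vale.Agent.P202.Mixed.Defs
import Vale.Agent.P202.Mixed.Slice.Chase
import Vale.Agent.P202.Segre.Slice

/-!
# P202 mixed characteristic: slices of local cohomology for arbitrary shifts

The shifts `c` of the factors replace the shifts `a * K` of `Segre/Slice`; the contraction of one
monomial is the one of `Segre/Scalar`.
-/

noncomputable section

namespace Vale.Agent.P202.Mixed.Slice

open Finset Segre

variable {k : Type*} [Field k] {n : ℕ} {c : Fin n → ℤ}

/-- Exponent conditions of a component in degree `t`. -/
def allowC (c : Fin n → ℤ) (t : ℤ) (α : Fin n → ℤ) : Cov n → Prop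
  | none => ∀ a, 0 ≤ α a ∧ α a ≤ t + (c a - 1)
  | some ε => ∀ a, (ε a = 0 → α a ≤ t + (c a - 1)) ∧ (ε a = 1 → 0 ≤ α a)

variable (k) in
/-- Families with allowed monomials in degree `t`. -/
def sliceC (c : Fin n → ℤ) (t : ℤ) : Submodule k (Cov n → Coef k n) where
  carrier := {f | ∀ e α, (f e).coeff α ≠ 0 → allowC c t α e}
  add_mem' := by
    intro f f' hf hf' e α h
    simp only [Pi.add_apply, AddMonoidAlgebra.coeff_add, Finsupp.add_apply] at h
    by_cases h1 : (f e).coeff α = 0
    · exact hf' e α (by simpa [h1] using h)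
    · exact hf e α h1
  zero_mem' := by
    intro e α h
    simp at h
  smul_mem' := by
    intro c f hf e α h
    simp only [Pi.smul_apply, AddMonoidAlgebra.coeff_smul, Finsupp.smul_apply, smul_eq_mul] at h
    exact hf e α fun h0 => h (by simp [h0])

/-! ### Allowed indices -/

/-- `u` alone may be inverted. -/
def c0T (c : Fin n → ℤ) (t : ℤ) (α : Fin n → ℤ) : Fin n → Bool := fun a => decide (α a ≤ t + (c a - 1))

variable (n) in
/-- `v` alone may be inverted. -/
def c1T (α : Fin n → ℤ) : Fin n → Bool := fun a => decide (0 ≤ α a)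

theorem okC_iff (c : Fin n → ℤ) (t : ℤ) (α : Fin n → ℤ) (e : Cov n) :
    okC (c0T c t α) (c1T n α) e ↔ allowC c t α e := by
  cases e with
  | none =>
      simp only [okC, allowC, c0T, c1T, decide_eq_true_eq]
      exact forall_congr' fun a => and_comm
  | some e => simp [okC, okE, allowC, c0T, c1T]

theorem supC_of_slice {t : ℤ} {f : Cov n → Coef k n} (hf : f ∈ sliceC k c t) (α : Fin n → ℤ) :
    SupC (c0T c t α) (c1T n α) (coefA k n α f) :=
  fun e he => (okC_iff c t α e).2 (hf e α he)

theorem mem_slice_of_supC {t : ℤ} {f : Cov n → Coef k n}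
    (hf : ∀ α, SupC (c0T c t α) (c1T n α) (coefA k n α f)) : f ∈ sliceC k c t :=
  fun e α h => (okC_iff c t α e).1 (hf α e h)

theorem grC_of_deg {j : ℤ} {f : Cov n → Coef k n} (hf : f ∈ (sliceDiff k n).deg j)
    (α : Fin n → ℤ) : GrC (-j) (coefA k n α f) := fun e he => by
  by_contra hne
  exact he (by simp [coefA, hf e fun h => hne (by omega)])

theorem deg_of_grC {j : ℤ} {f : Cov n → Coef k n} (hf : ∀ α, GrC (-j) (coefA k n α f)) :
    f ∈ (sliceDiff k n).deg j := fun e he => by
  refine AddMonoidAlgebra.ext (Finsupp.ext fun α => ?_)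
  by_contra hne
  exact he (by have := hf α e hne; omega)

variable (k) in
/-- The contraction of a slice. -/
def hS (c : Fin n → ℤ) (t : ℤ) : (Cov n → Coef k n) →ₗ[k] (Cov n → Coef k n) :=
  liftA fun α => hC k n (c0T c t α) (c1T n α)

variable (k) in
/-- The projection of a slice. -/
def pS (c : Fin n → ℤ) (t : ℤ) : (Cov n → Coef k n) →ₗ[k] (Cov n → Coef k n) :=
  liftA fun α => pC k n (c0T c t α) (c1T n α)

/-! ### The harmonic monomials -/

/-- Monomials of the harmonic part in degree `t`. -/
def pat (c : Fin n → ℤ) (t : ℤ) : Finset (Fin n → ℤ) :=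
  Fintype.piFinset fun a : Fin n =>
    if 0 < t + c a then Finset.Icc 0 (t + (c a - 1))
    else Finset.Ioo (t + (c a - 1)) 0

/-- The number of factors in negative degree. -/
def negC (c : Fin n → ℤ) (t : ℤ) : ℕ := (univ.filter fun a : Fin n => t + c a ≤ -1).card

theorem mem_pat {t : ℤ} {α : Fin n → ℤ} :
    α ∈ pat c t ↔ ∀ a, c0T c t α a = c1T n α a := by
  simp only [pat, Fintype.mem_piFinset]
  refine forall_congr' fun a => ?_
  simp only [c0T, c1T]
  rw [decide_eq_decide]
  split_ifs with h <;> simp only [Finset.mem_Icc, Finset.mem_Ioo] <;> omega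

theorem pat_both_iff {t : ℤ} {α : Fin n → ℤ} (hα : α ∈ pat c t) (a : Fin n) :
    (c0T c t α a && c1T n α a) = decide (¬ t + c a ≤ -1) := by
  have h1 := mem_pat.1 hα a
  simp only [c0T, c1T] at h1 ⊢
  rw [decide_eq_decide] at h1
  rw [← Bool.decide_and, decide_eq_decide]
  omega

theorem card_pat (t : ℤ) : (pat c t).card = (∏ a, (t + c a)).natAbs := by
  rw [pat, Fintype.card_piFinset, show (∏ a, (t + c a)).natAbs = ∏ a, (t + c a).natAbs from
    map_prod Int.natAbsHom _ _]
  refine Finset.prod_congr rfl fun a _ => ?_
  split_ifs <;> simp only [Int.card_Icc, Int.card_Ioo] <;> omega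

theorem not_allBoth {t : ℤ} {α : Fin n → ℤ} (hα : α ∈ pat c t) (hp : negC c t ≠ 0) :
    ¬ ∀ a, c0T c t α a = true ∧ c1T n α a = true := by
  intro hall
  obtain ⟨a, ha⟩ := Finset.card_ne_zero.1 hp
  have h1 := pat_both_iff hα a
  rw [(hall a).1, (hall a).2] at h1
  simp at h1
  exact absurd (Finset.mem_filter.1 ha).2 (by omega)

theorem pC_coef_eq_zero {t : ℤ} {α : Fin n → ℤ} (h : ¬ (α ∈ pat c t ∧ negC c t ≠ 0))
    (g : Cov n → k) : pC k n (c0T c t α) (c1T n α) g = 0 := by
  refine ext_cov (by simp [pC]) ?_
  by_cases hb : ∀ a, c0T c t α a = true ∧ c1T n α a = true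
  · simp [pC, hb]
  · have hne : ∃ a, c0T c t α a ≠ c1T n α a := by
      by_contra hall
      push Not at hall
      have hα : α ∈ pat c t := mem_pat.2 hall
      apply h
      refine ⟨hα, fun h0 => hb fun a => ?_⟩
      have h1 := pat_both_iff hα a
      have h2 : ¬ t + c a ≤ -1 := fun hle => by
        simp only [negC, Finset.card_eq_zero, Finset.filter_eq_empty_iff] at h0
        exact h0 (Finset.mem_univ a) hle
      simp only [h2, not_false_iff, decide_true, Bool.and_eq_true] at h1
      exact h1
    simp [pC, hb, pE_eq_zero n _ _ hne]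

theorem pC_coef_eq {t : ℤ} {α : Fin n → ℤ} (hα : α ∈ pat c t) (hp : negC c t ≠ 0)
    (g : Cov n → k) : someL k n (pC k n (c0T c t α) (c1T n α) g) =
      g (some (Segre.star (c0T c t α) (c1T n α))) • vE k (c0T c t α) (c1T n α) := by
  simp only [pC, if_neg (not_allBoth hα hp), someL_optL, LinearMap.comp_apply]
  exact pE_eq n _ _ (mem_pat.1 hα) _

theorem twos_harm {t : ℤ} {α : Fin n → ℤ} (hα : α ∈ pat c t) {e : Chart n}
    (he : harm (c0T c t α) (c1T n α) e) : twos n e = negC c t := by
  unfold twos negC
  refine congrArg Finset.card (Finset.filter_congr fun a _ => ?_)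
  have h1 := he a
  rw [pat_both_iff hα a] at h1
  by_cases h : t + c a ≤ -1 <;> simp [h] at h1 ⊢ <;> exact h1

/-- Monomials of the harmonic part in degree `t` and position `j`. -/
def patJ (c : Fin n → ℤ) (t j : ℤ) : Finset (Fin n → ℤ) :=
  if negC c t ≠ 0 ∧ j = -((negC c t : ℤ) + 1) then pat c t else ∅

/-! ### The homology of a slice -/

variable (k n)

/-- The homology of a slice is the space of functions on its harmonic monomials. -/
def sliceHomEquiv (c : Fin n → ℤ) (t j : ℤ) :
    (sliceDiff k n).H (sliceC k c t) ⊥ j ≃ₗ[k] (patJ c t j → k) := by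
  set X := sliceC k c t
  set D := sliceDiff k n
  have hP : ∀ x ∈ X ⊓ D.deg j, pS k c t x ∈ X ⊓ D.deg j := fun x hx =>
    ⟨mem_slice_of_supC fun α => by
        rw [pS, coefA_liftA]; exact supC_pC (supC_of_slice hx.1 α),
      deg_of_grC fun α => by rw [pS, coefA_liftA]; exact grC_pC (grC_of_deg hx.2 α)⟩
  have hhom : D.H X ⊥ j ≃ₗ[k] (X ⊓ D.deg j).map (pS k c t) := by
    refine homEquivOfContraction D X j (hS k c t) (pS k c t) hP ?_ ?_ ?_ ?_ ?_
    · exact fun x hx => ⟨mem_slice_of_supC fun α => by
          rw [hS, coefA_liftA]; exact supC_hC (supC_of_slice hx.1 α),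
        deg_of_grC fun α => by
          rw [hS, coefA_liftA]
          refine grC_hC ?_
          rw [show -(j + 1) + 1 = -j by ring]
          exact grC_of_deg hx.2 α⟩
    · intro x hx
      refine coefA_ext fun α => ?_
      show coefA k n α (delta k (Coef k n) (hS k c t x) + hS k c t (delta k (Coef k n) x) +
        pS k c t x) = _
      rw [map_add, map_add, coefA_delta, hS, coefA_liftA, coefA_liftA, coefA_delta, pS, coefA_liftA]
      exact contractionC (supC_of_slice hx.1 α)
    · intro x hx
      refine coefA_ext fun α => ?_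
      show coefA k n α (pS k c t (delta k (Coef k n) x)) = _
      rw [pS, coefA_liftA, coefA_delta, map_zero]
      exact pC_dC (supC_of_slice hx.1 α)
    · intro x _
      refine coefA_ext fun α => ?_
      show coefA k n α (delta k (Coef k n) (pS k c t x)) = _
      rw [coefA_delta, pS, coefA_liftA, map_zero]
      exact dC_pC _ _ _
    · intro x _
      refine coefA_ext fun α => ?_
      rw [pS, coefA_liftA, coefA_liftA, pC_pC]
  let Φ : (X ⊓ D.deg j).map (pS k c t) →ₗ[k] (patJ c t j → k) :=
    { toFun := fun f α =>
        coefA k n α.1 (f : Cov n → Coef k n) (some (Segre.star (c0T c t α.1) (c1T n α.1)))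
      map_add' := fun f g => by funext α; simp
      map_smul' := fun c f => by funext α; simp }
  have hfix : ∀ f ∈ (X ⊓ D.deg j).map (pS k c t), ∀ α,
      pC k n (c0T c t α) (c1T n α) (coefA k n α f) = coefA k n α f := by
    rintro _ ⟨x, -, rfl⟩ α
    rw [pS, coefA_liftA, pC_pC]
  refine hhom.trans (LinearEquiv.ofBijective Φ ⟨?_, ?_⟩)
  · rw [injective_iff_map_eq_zero]
    rintro ⟨f, hf⟩ h0
    refine Subtype.ext (coefA_ext fun α => ?_)
    rw [← hfix f hf α]
    show _ = coefA k n α (0 : Cov n → Coef k n)
    rw [map_zero]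
    by_cases h : α ∈ pat c t ∧ negC c t ≠ 0
    · refine ext_cov (by simp [pC]) ?_
      rw [pC_coef_eq h.1 h.2, map_zero]
      obtain ⟨x, hx, rfl⟩ := hf
      by_cases hj : j = -((negC c t : ℤ) + 1)
      · have := congrFun h0 ⟨α, by rw [patJ, if_pos ⟨h.2, hj⟩]; exact h.1⟩
        simp only [Φ, LinearMap.coe_mk, AddHom.coe_mk, Pi.zero_apply] at this
        rw [this, zero_smul]
      · refine smul_eq_zero_of_left ?_ _
        by_contra hne
        have h2 := grC_of_deg (hP x hx).2 α _ hne
        rw [show cdeg n (some (Segre.star (c0T c t α) (c1T n α))) = 1 + negC c t by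
          simp only [cdeg, twos_harm h.1 (harm_star _ _)]] at h2
        push_cast at h2
        omega
    · exact pC_coef_eq_zero h _
  · intro g
    let f : Cov n → Coef k n := fun e => ∑ α : patJ c t j,
      AddMonoidAlgebra.single α.1
        (g α * Option.elim e 0 (fun e => vE k (c0T c t α.1) (c1T n α.1) e))
    have hcoef : ∀ α e, coefA k n α f e = if hα : α ∈ patJ c t j then
        g ⟨α, hα⟩ * Option.elim e 0 (fun e => vE k (c0T c t α) (c1T n α) e) else 0 := by
      intro α e
      simp only [f, coefA, LinearMap.coe_mk, AddHom.coe_mk, AddMonoidAlgebra.coeff_sum,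
        Finsupp.finsetSum_apply, AddMonoidAlgebra.coeff_single, Finsupp.single_apply]
      split_ifs with hα
      · rw [Finset.sum_eq_single ⟨α, hα⟩]
        · simp
        · intro β _ hβ; rw [if_neg]; exact fun e => hβ (Subtype.ext e)
        · simp
      · exact Finset.sum_eq_zero fun β _ => if_neg fun e => hα (by rw [← e]; exact β.2)
    have hpj : ∀ α, α ∈ patJ c t j →
        (α ∈ pat c t ∧ negC c t ≠ 0) ∧ j = -((negC c t : ℤ) + 1) := by
      intro α hα
      unfold patJ at hα
      split_ifs at hα with h
      · exact ⟨⟨hα, h.1⟩, h.2⟩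
      · exact absurd hα (Finset.notMem_empty α)
    have hfP : pS k c t f = f := by
      refine coefA_ext fun α => ?_
      rw [pS, coefA_liftA]
      by_cases hα : α ∈ patJ c t j
      · refine ext_cov (by simp [pC, hcoef]) ?_
        rw [pC_coef_eq (hpj α hα).1.1 (hpj α hα).1.2]
        funext e
        simp [someL, LinearMap.funLeft, hcoef, hα, vE_star]
      · have : coefA k n α f = 0 := funext fun e => by rw [hcoef, dif_neg hα]; rfl
        rw [this, map_zero]
    have hfX : f ∈ X ⊓ D.deg j := by
      refine ⟨mem_slice_of_supC fun α e he => ?_, deg_of_grC fun α e he => ?_⟩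
      · rw [hcoef] at he
        split_ifs at he with hα
        · cases e with
          | none => simp at he
          | some e =>
              simp only [Option.elim_some, vE, ne_eq, mul_eq_zero, ite_eq_right_iff, one_ne_zero,
                imp_false, not_or, not_not] at he
              intro a
              have h1 := he.2 a
              have h2 := mem_pat.1 (hpj α hα).1.1 a
              refine ⟨fun e0 => ?_, fun e1 => ?_⟩
              · by_contra hc
                rw [if_neg (by simp [hc])] at h1
                rw [e0] at h1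
                exact absurd h1 (by decide)
              · by_contra hc
                rw [if_neg (by simp [hc])] at h1
                rw [e1] at h1
                exact absurd h1 (by decide)
        · exact absurd rfl he
      · rw [hcoef] at he
        split_ifs at he with hα
        · cases e with
          | none => simp at he
          | some e =>
              simp only [Option.elim_some, vE, ne_eq, mul_eq_zero, ite_eq_right_iff, one_ne_zero,
                imp_false, not_or, not_not] at he
              have h1 := (hpj α hα).2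
              simp only [cdeg, twos_harm (hpj α hα).1.1 he.2]
              push_cast
              omega
        · exact absurd rfl he
    refine ⟨⟨f, f, hfX, hfP⟩, funext fun α => ?_⟩
    show coefA k n α.1 f _ = g α
    rw [hcoef, dif_pos α.2]
    simp [vE_star]


theorem slice_betti (c : Fin n → ℤ) (t j : ℤ) :
    (sliceDiff k n).betti (sliceC k c t) ⊥ j = sliceDim c t j := by
  rw [Diff.betti, (sliceHomEquiv k n c t j).finrank_eq, Module.finrank_pi, Fintype.card_coe]
  have hneg : negC c t = (univ.filter fun a => t + c a < 0).card :=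
    congrArg Finset.card (Finset.filter_congr fun a _ => by omega)
  by_cases hz : ∀ a, t + c a ≠ 0
  · simp only [patJ, sliceDim, hneg, apply_ite Finset.card, card_pat, Finset.card_empty, hz,
      implies_true, true_and, Nat.one_le_iff_ne_zero, ne_eq, not_false_eq_true]
  · rw [sliceDim, if_neg fun h => hz h.1, patJ]
    push Not at hz
    obtain ⟨a, ha⟩ := hz
    split_ifs
    · rw [card_pat, Finset.prod_eq_zero (Finset.mem_univ a) ha]
      rfl
    · rfl

/-- The slice is exact where all factors are in positive degree. -/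
theorem slice_acyclic (c : Fin n → ℤ) (t : ℤ) (ht : ∀ a, 0 < t + c a) :
    Acyclic (sliceDiff k n) (sliceC k c t) := by
  intro j x hx hj hd
  refine ⟨hS k c t x, mem_slice_of_supC fun α => by
    rw [hS, coefA_liftA]; exact supC_hC (supC_of_slice hx α), deg_of_grC fun α => by
      rw [hS, coefA_liftA]
      refine grC_hC ?_
      rw [show -(j + 1) + 1 = -j by ring]
      exact grC_of_deg hj α, coefA_ext fun α => ?_⟩
  have hneg : negC c t = 0 := by
    simp only [negC, Finset.card_eq_zero, Finset.filter_eq_empty_iff]
    intro a _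
    have := ht a
    omega
  have h := contractionC (supC_of_slice hx α)
  have hd' : dC k n (coefA k n α x) = 0 := by
    rw [← coefA_delta]
    exact (congrArg (coefA k n α) hd).trans (map_zero _)
  rw [hd', map_zero, pC_coef_eq_zero (fun hh => hh.2 hneg), add_zero, add_zero] at h
  show coefA k n α (delta k (Coef k n) (hS k c t x)) = _
  rw [coefA_delta, hS, coefA_liftA]
  exact h

end Vale.Agent.P202.Mixed.Slice
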