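import Vale.Agent.P202.Mixed.Slice.Sections

/-!
# P202 mixed characteristic: the operators on one component

Each component is stable under the operators, and on a localised component a combination of their
`B`-th powers with coefficients lowering the degree by `B` is the identity.
-/

noncomputable section

namespace Vale.Agent.P202.Mixed.Slice

open Finset Segre

universe u

variable {k : Type u} [Field k] {n : ℕ} {c : Fin n → ℤ}

variable (k) in
/-- One component in degree `t`. -/
def compC (c : Fin n → ℤ) (t : ℤ) (e : Cov n) : Submodule k (Coef k n) where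
  carrier := {f | ∀ α, f.coeff α ≠ 0 → allowC c t α e}
  add_mem' := by
    intro f g hf hg α h
    by_cases h1 : f.coeff α = 0
    · exact hg α (by simpa [AddMonoidAlgebra.coeff_add, h1] using h)
    · exact hf α h1
  zero_mem' := by
    intro α h
    simp at h
  smul_mem' := by
    intro r f hf α h
    exact hf α fun h0 => h (by simp [h0])

theorem mem_sliceC {t : ℤ} {f : Cov n → Coef k n} :
    f ∈ sliceC k c t ↔ ∀ e, f e ∈ compC k c t e := Iff.rfl

theorem mem_compC_none {t : ℤ} {f : Coef k n} : f ∈ compC k c t none ↔ f ∈ sec k c t := Iff.rfl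

theorem mul_mem_compC {t t' : ℤ} {e e' : Cov n} {ρ f : Coef k n}
    (h : ∀ β, ρ.coeff β ≠ 0 → ∀ α, allowC c t α e → allowC c t' (β + α) e')
    (hf : f ∈ compC k c t e) : ρ * f ∈ compC k c t' e' := by
  rw [eq_sum_single ρ, Finset.sum_mul]
  refine Submodule.sum_mem _ fun β hβ => ?_
  rw [eq_sum_single f, Finset.mul_sum]
  refine Submodule.sum_mem _ fun α hα => ?_
  rw [AddMonoidAlgebra.single_mul_single]
  intro γ hγ
  rw [AddMonoidAlgebra.coeff_single, Finsupp.single_apply] at hγ
  split_ifs at hγ with e0
  · subst e0
    exact h β (Finsupp.mem_support_iff.1 hβ) α (hf α (Finsupp.mem_support_iff.1 hα))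
  · exact absurd rfl hγ

theorem esym_mul_mem {t : ℤ} (e : Cov n) (j : ℕ) {f : Coef k n} (hf : f ∈ compC k c t e) :
    esym k n j * f ∈ compC k c (t + 1) e := by
  refine mul_mem_compC (fun β hβ α hα => ?_) hf
  have hβ' : ∀ a, 0 ≤ β a ∧ β a ≤ 1 := by
    simp only [esym, AddMonoidAlgebra.coeff_sum, AddMonoidAlgebra.coeff_single,
      Finsupp.finsetSum_apply] at hβ
    obtain ⟨s, -, hs⟩ := Finset.exists_ne_zero_of_sum_ne_zero hβ
    rw [Finsupp.single_apply] at hs
    split_ifs at hs with e0
    · intro a
      rw [← e0]
      dsimp only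
      split_ifs <;> omega
    · exact absurd rfl hs
  cases e with
  | none =>
    intro a
    have := hα a
    have := hβ' a
    simp only [Pi.add_apply]
    omega
  | some ε =>
    intro a
    have := hβ' a
    refine ⟨fun h0 => ?_, fun h1 => ?_⟩
    · have := (hα a).1 h0
      simp only [Pi.add_apply]
      omega
    · have := (hα a).2 h1
      simp only [Pi.add_apply]
      omega

theorem esym_pow_mul_mem {t : ℤ} (e : Cov n) (j : ℕ) (B : ℕ) {f : Coef k n}
    (hf : f ∈ compC k c t e) : esym k n j ^ B * f ∈ compC k c (t + B) e := by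
  induction B generalizing t f with
  | zero => simpa using hf
  | succ B ih =>
    rw [pow_succ, mul_assoc]
    have := ih (esym_mul_mem e j hf)
    rwa [show t + 1 + (B : ℤ) = t + ((B + 1 : ℕ) : ℤ) by push_cast; ring] at this

/-- On a localised component the `B`-th powers of the operators generate the unit ideal. -/
theorem exists_rho (k : Type u) [Field k] (c : Fin n → ℤ) (B : ℕ) (ε : Fin n → Fin 3) :
    ∃ ρ : Fin (n + 1) → Coef k n, (∑ j : Fin (n + 1), esym k n j ^ B * ρ j = 1) ∧
      ∀ j, ∀ t, ∀ f ∈ compC k c t (some ε), ρ j * f ∈ compC k c (t - B) (some ε) := by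
  set s := unitSet n ε
  obtain ⟨M, r, hr, hW⟩ := W_pow_mem (k := k) s (fun _ : Fin (n + 1) => B)
  let r' : Fin (n + 1) → Coef k n := fun j => (r j).coeff ((M : ℤ) - B)
  have hbox : ∀ j β, (r' j).coeff β ≠ 0 → ∀ a, 0 ≤ β a ∧ β a ≤ (M : ℤ) - B := by
    intro j β hβ a
    have h1 : mono k n 1 0 ∈ comp k n 0 none := by
      intro t α hne
      simp only [mono, HahnSeries.coeff_single] at hne
      split_ifs at hne with ht
      · subst ht
        rw [AddMonoidAlgebra.coeff_single, Finsupp.single_apply] at hne
        split_ifs at hne with h0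
        · subst h0
          intro b
          simp [shift]
        · exact absurd rfl hne
      · simp at hne
    have h2 := polyRing_mul_mem 0 (hr j) _ h1 ((M : ℤ) - B + 1) β (by
      rw [mul_comm, mono_mul_coeff]
      simpa using hβ) a
    simp [shift] at h2
    omega
  refine ⟨fun j => AddMonoidAlgebra.single (fun a => -((M : ℤ) * ind n s a)) 1 * r' j, ?_, ?_⟩
  · have hpow : W k n s ^ M =
        HahnSeries.single (M : ℤ) (AddMonoidAlgebra.single (fun a => (M : ℤ) * ind n s a) 1) := by
      rw [W, mono, HahnSeries.single_pow, AddMonoidAlgebra.single_pow, one_pow]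
      simp only [nsmul_eq_mul, Pi.natCast_def]
      congr 1
      simp
    have hX : ∀ j : Fin (n + 1), segreHom k n (MvPowerSeries.X j) ^ B =
        HahnSeries.single (B : ℤ) (esym k n j ^ B) := by
      intro j
      rw [segreHom_X, HahnSeries.single_pow]
      simp
    have hc : AddMonoidAlgebra.single (fun a => (M : ℤ) * ind n s a) (1 : k) =
        ∑ j : Fin (n + 1), esym k n j ^ B * r' j := by
      have := congrArg (fun F : Lam k n => F.coeff (M : ℤ)) hW
      simp only [hpow, HahnSeries.coeff_single_same, hX, HahnSeries.coeff_sum] at this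
      rw [this]
      refine Finset.sum_congr rfl fun j _ => ?_
      have h := HahnSeries.coeff_single_mul_add (r := esym k n (j : ℕ) ^ B) (x := r j)
        (a := (M : ℤ) - B) (b := (B : ℤ))
      rw [sub_add_cancel] at h
      rw [mul_comm (r j), h]
    calc ∑ j : Fin (n + 1), esym k n j ^ B *
          (AddMonoidAlgebra.single (fun a => -((M : ℤ) * ind n s a)) 1 * r' j)
        = AddMonoidAlgebra.single (fun a => -((M : ℤ) * ind n s a)) 1 *
            ∑ j : Fin (n + 1), esym k n j ^ B * r' j := by
          rw [Finset.mul_sum]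
          exact Finset.sum_congr rfl fun j _ => mul_left_comm _ _ _
      _ = 1 := by
          rw [← hc, AddMonoidAlgebra.single_mul_single, one_mul, AddMonoidAlgebra.one_def]
          congr 1
          funext a
          simp
  · intro j t f hf
    rw [mul_assoc]
    have h1 : r' j * f ∈ compC k c (t + (M - B)) (some ε) := by
      refine mul_mem_compC (fun β hβ α hα a => ?_) hf
      have := hbox j β hβ a
      refine ⟨fun h0 => ?_, fun h0 => ?_⟩
      · have := (hα a).1 h0
        simp only [Pi.add_apply]
        omega
      · have := (hα a).2 h0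
        simp only [Pi.add_apply]
        omega
    refine mul_mem_compC (fun β hβ α hα a => ?_) h1
    rw [AddMonoidAlgebra.coeff_single, Finsupp.single_apply] at hβ
    split_ifs at hβ with e0
    · subst e0
      simp only [Pi.add_apply, s, unitSet, ind, Finset.mem_filter, Finset.mem_univ, true_and]
      refine ⟨fun h0 => ?_, fun h0 => ?_⟩
      · have := (hα a).1 h0
        rw [if_pos h0]
        omega
      · have := (hα a).2 h0
        rw [if_neg (by rw [h0]; decide)]
        omega
    · exact absurd rfl hβ

end Vale.Agent.P202.Mixed.Slice
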