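import Vale.Agent.P202.Mixed.Slice.AugRes

/-!
# P202 mixed characteristic: augmented graded complexes over any ring

Change of coefficients, and the extension of an augmented complex by cycles in its top position.
-/

noncomputable section

namespace Vale.Agent.P202.Mixed.Slice

open Finset Segre

universe v v'

variable {A : Type v} [CommRing A] {A' : Type v'} [CommRing A'] (φ : A →+* A') {n d : ℕ}

variable (A) in
/-- Families of given total degree. -/
def piece {ι : Type} (deg : ι → ℤ) (t : ℤ) : Submodule A (ι → MvPolynomial (Fin d) A) :=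
  Submodule.pi Set.univ fun g => homInt A d (t - deg g)

theorem mem_piece {ι : Type} {deg : ι → ℤ} {t : ℤ} {f : ι → MvPolynomial (Fin d) A} :
    f ∈ piece A deg t ↔ ∀ g, f g ∈ homInt A d (t - deg g) := by simp [piece]

theorem piece_eq_degPiece (k : Type v) [Field k] {ι : Type} (deg : ι → ℤ) (t : ℤ) :
    piece k (d := d) deg t = degPiece k deg t := rfl

/-- Change of coefficients of Laurent polynomials. -/
def mapLau (n : ℕ) : Lau A n →+* Lau A' n := AddMonoidAlgebra.mapRingHom (Fin n → ℤ) φ

theorem coeff_mapLau (f : Lau A n) (α : Fin n → ℤ) :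
    (mapLau φ n f).coeff α = φ (f.coeff α) := AddMonoidAlgebra.coeff_mapRingHom _ _ _

theorem mapLau_single (α : Fin n → ℤ) (a : A) :
    mapLau φ n (AddMonoidAlgebra.single α a) = AddMonoidAlgebra.single α (φ a) :=
  AddMonoidAlgebra.mapRingHom_single _ _ _

theorem mapLau_aev (q : MvPolynomial (Fin (n + 1)) A) :
    mapLau φ n (aev A n q) = aev A' n (MvPolynomial.map φ q) := by
  induction q using MvPolynomial.induction_on with
  | C a =>
    simp only [aev, MvPolynomial.aeval_C, MvPolynomial.map_C]
    simp [mapLau_single]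
  | add p q hp hq => simp [hp, hq]
  | mul_X p i hp =>
    simp only [map_mul, hp, MvPolynomial.map_X]
    congr 1
    simp [aev, esR, mapLau_single]

theorem mapLau_mem_sec {c : Fin n → ℤ} {t : ℤ} {f : Lau A n} (hf : f ∈ sec A c t) :
    mapLau φ n f ∈ sec A' c t := fun α h => by
  rw [coeff_mapLau] at h
  exact hf α fun h0 => h (by rw [h0, map_zero])

theorem map_compInt (e : ℤ) (q : MvPolynomial (Fin d) A) :
    MvPolynomial.map φ (compInt A d e q) = compInt A' d e (MvPolynomial.map φ q) := by
  refine MvPolynomial.ext _ _ fun s => ?_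
  simp only [MvPolynomial.coeff_map, coeff_compInt, apply_ite φ, map_zero]

/-- Augmented graded complexes over any ring, exact below position `L`. -/
structure IsPartial (c : Fin n → ℤ) (G : FreeCx (MvPolynomial (Fin (n + 1)) A)) (deg : G.ι → ℤ)
    (w : G.ι → Lau A n) (L : ℕ) : Prop where
  homog : ∀ h g, G.mat h g ∈ homInt A (n + 1) (deg g - deg h)
  w_mem : ∀ g, w g ∈ sec A c (deg g)
  w_zero : ∀ g, G.pos g ≠ 0 → w g = 0
  aug_d : ∀ g, ∑ h, aev A n (G.mat h g) * w h = 0
  len : ∀ g, G.pos g ≤ L
  surj : ∀ t, ∀ x ∈ sec A c t, ∃ z ∈ piece A deg t, (∀ g, G.pos g ≠ 0 → z g = 0) ∧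
    ∑ g, aev A n (z g) * w g = x
  exact : ∀ t (i : ℕ), i < L → ∀ z ∈ piece A deg t, (∀ g, G.pos g ≠ i → z g = 0) →
    G.dA (MvPolynomial (Fin (n + 1)) A) z = 0 → ∑ g, aev A n (z g) * w g = 0 →
      ∃ y ∈ piece A deg t, (∀ g, G.pos g ≠ i + 1 → y g = 0) ∧
        G.dA (MvPolynomial (Fin (n + 1)) A) y = z

/-! ### Extension by cycles -/

section Extend

variable (G : FreeCx (MvPolynomial (Fin d) A)) (L r : ℕ)
  (z : Fin r → G.ι → MvPolynomial (Fin d) A)
  (hz : ∀ j, (∀ g, G.pos g ≠ L → z j g = 0) ∧ G.dA (MvPolynomial (Fin d) A) (z j) = 0)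

/-- The matrix of the extension. -/
def extMat : Matrix (G.ι ⊕ Fin r) (G.ι ⊕ Fin r) (MvPolynomial (Fin d) A) :=
  Matrix.of fun p q =>
    match p, q with
    | .inl h, .inl g => G.mat h g
    | .inl h, .inr j => z j h
    | .inr _, _ => 0

/-- Adjoin basis vectors mapping to the cycles `z` in position `L`. -/
def extendCx : FreeCx (MvPolynomial (Fin d) A) where
  ι := G.ι ⊕ Fin r
  pos := Sum.elim G.pos fun _ => L + 1
  mat := extMat G r z
  mat_pos := by
    rintro (h | i) (g | j) hne <;> simp only [extMat, Matrix.of_apply] at hne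
    · exact G.mat_pos h g hne
    · show L + 1 = G.pos h + 1
      rw [by_contra fun h0 => hne ((hz j).1 h h0)]
    · exact absurd rfl hne
    · exact absurd rfl hne
  sq := by
    refine Matrix.ext fun p q => ?_
    rcases p with h | i
    · rw [Matrix.mul_apply, Matrix.zero_apply, Fintype.sum_sum_type]
      simp only [extMat, Matrix.of_apply, mul_zero, Finset.sum_const_zero, add_zero]
      rcases q with g | j
      · have := congrFun (congrFun G.sq h) g
        rwa [Matrix.mul_apply] at this
      · exact congrFun (hz j).2 h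
    · simp [Matrix.mul_apply, extMat]

variable {G L r z}

theorem extend_dA (f : G.ι ⊕ Fin r → MvPolynomial (Fin d) A) :
    (∀ h, (extendCx G L r z hz).dA (MvPolynomial (Fin d) A) f (.inl h) =
      G.dA (MvPolynomial (Fin d) A) (fun g => f (.inl g)) h + ∑ j, z j h * f (.inr j)) ∧
    ∀ i, (extendCx G L r z hz).dA (MvPolynomial (Fin d) A) f (.inr i) = 0 := by
  refine ⟨fun h => ?_, fun i => ?_⟩
  · show ∑ q : G.ι ⊕ Fin r, extMat G r z (.inl h) q * f q = _
    rw [Fintype.sum_sum_type]
    rfl
  · show ∑ q : G.ι ⊕ Fin r, extMat G r z (.inr i) q * f q = _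
    simp [extMat]

end Extend

variable {c : Fin n → ℤ} {G : FreeCx (MvPolynomial (Fin (n + 1)) A)} {deg : G.ι → ℤ}
  {w : G.ι → Lau A n} {L r : ℕ} {z : Fin r → G.ι → MvPolynomial (Fin (n + 1)) A} {τ : Fin r → ℤ}

/-- Cycles in the top position extend an augmented complex; exactness persists below that
position. -/
theorem IsPartial.extend_exact_low (hG : IsPartial c G deg w L)
    (hz : ∀ j, (∀ g, G.pos g ≠ L → z j g = 0) ∧ G.dA (MvPolynomial (Fin (n + 1)) A) (z j) = 0)
    (t : ℤ) (i : ℕ) (hi : i < L) (x : G.ι ⊕ Fin r → MvPolynomial (Fin (n + 1)) A)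
    (hx : x ∈ piece A (Sum.elim deg τ) t)
    (hxi : ∀ g, (extendCx G L r z hz).pos g ≠ i → x g = 0)
    (hd : (extendCx G L r z hz).dA (MvPolynomial (Fin (n + 1)) A) x = 0)
    (ha : ∑ g, aev A n (x g) * Sum.elim w (fun _ => 0) g = 0) :
    ∃ y ∈ piece A (Sum.elim deg τ) t, (∀ g, (extendCx G L r z hz).pos g ≠ i + 1 → y g = 0) ∧
      (extendCx G L r z hz).dA (MvPolynomial (Fin (n + 1)) A) y = x := by
  have hr : ∀ j, x (.inr j) = 0 := fun j => hxi (.inr j) (show L + 1 ≠ i by omega)
  obtain ⟨y, hy, hy1, hy2⟩ := hG.exact t i hi (fun g => x (.inl g))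
    (mem_piece.2 fun g => mem_piece.1 hx (.inl g)) (fun g hg => hxi (.inl g) hg)
    (funext fun h => by
      have h1 := ((extend_dA hz x).1 h).symm.trans (congrFun hd (.inl h))
      simp only [hr, mul_zero, Finset.sum_const_zero, add_zero] at h1
      exact h1)
    (by simpa [Fintype.sum_sum_type, hr] using ha)
  refine ⟨Sum.elim y 0, mem_piece.2 ?_, ?_, funext ?_⟩
  · rintro (g | j)
    · exact mem_piece.1 hy g
    · exact Submodule.zero_mem _
  · rintro (g | j) hg
    · exact hy1 g hg
    · rfl
  · rintro (h | j)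
    · rw [(extend_dA hz _).1 h]
      simp [hy2]
    · rw [(extend_dA hz _).2 j, hr j]

/-- A combination of homogeneous cycles generating the cycles of the top position can be taken
homogeneous. -/
theorem homogeneous_combination {ι : Type} {deg : ι → ℤ} {d : ℕ}
    {z : Fin r → ι → MvPolynomial (Fin d) A} (hzp : ∀ j, z j ∈ piece A deg (τ j)) {t : ℤ}
    {x : ι → MvPolynomial (Fin d) A} (hx : x ∈ piece A deg t)
    (q : Fin r → MvPolynomial (Fin d) A) (h : ∑ j, q j • z j = x) :
    ∑ j, compInt A d (t - τ j) (q j) • z j = x := by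
  funext g
  have h1 := compInt_eq_self (mem_piece.1 hx g)
  rw [← h, Finset.sum_apply, map_sum] at h1
  rw [← h, Finset.sum_apply, Finset.sum_apply, ← h1]
  refine Finset.sum_congr rfl fun j _ => ?_
  rw [Pi.smul_apply, Pi.smul_apply, smul_eq_mul, smul_eq_mul,
    compInt_mul _ (mem_piece.1 (hzp j) g)]
  rw [show t - deg g - (τ j - deg g) = t - τ j by ring]

/-- Extending by generators of the cycles in the top position. -/
theorem IsPartial.extend (hG : IsPartial c G deg w L)
    (hz : ∀ j, (∀ g, G.pos g ≠ L → z j g = 0) ∧ G.dA (MvPolynomial (Fin (n + 1)) A) (z j) = 0)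
    (hzp : ∀ j, z j ∈ piece A deg (τ j)) (hza : ∀ j, ∑ g, aev A n (z j g) * w g = 0)
    (gen : ∀ t, ∀ x ∈ piece A deg t, (∀ g, G.pos g ≠ L → x g = 0) →
      G.dA (MvPolynomial (Fin (n + 1)) A) x = 0 → ∑ g, aev A n (x g) * w g = 0 →
        ∃ q : Fin r → MvPolynomial (Fin (n + 1)) A, ∑ j, q j • z j = x) :
    IsPartial c (extendCx G L r z hz) (Sum.elim deg τ) (Sum.elim w fun _ => 0) (L + 1) where
  homog := by
    rintro (h | i) (g | j)
    · exact hG.homog h g
    · exact mem_piece.1 (hzp j) h
    · exact Submodule.zero_mem _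
    · exact Submodule.zero_mem _
  w_mem := by
    rintro (g | j)
    · exact hG.w_mem g
    · exact Submodule.zero_mem _
  w_zero := by
    rintro (g | j) hg
    · exact hG.w_zero g hg
    · rfl
  aug_d := by
    rintro (g | j) <;>
      refine Eq.trans (Fintype.sum_sum_type _) ?_ <;>
      simp only [extendCx, extMat, Matrix.of_apply, Sum.elim_inl, Sum.elim_inr, mul_zero,
        Finset.sum_const_zero, add_zero]
    · exact hG.aug_d g
    · exact hza j
  len := by
    rintro (g | j)
    · exact (hG.len g).trans (Nat.le_succ L)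
    · exact le_rfl
  surj t x hx := by
    obtain ⟨y, hy, hy0, hy1⟩ := hG.surj t x hx
    refine ⟨Sum.elim y 0, mem_piece.2 ?_, ?_, ?_⟩
    · rintro (g | j)
      · exact mem_piece.1 hy g
      · exact Submodule.zero_mem _
    · rintro (g | j) hg
      · exact hy0 g hg
      · rfl
    · refine (Fintype.sum_sum_type _).trans ?_
      simpa using hy1
  exact t i hi x hx hxi hd ha := by
    rcases Nat.lt_or_ge i L with h | h
    · exact hG.extend_exact_low hz t i h x hx hxi hd ha
    obtain rfl : i = L := by omega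
    have hr : ∀ j, x (.inr j) = 0 := fun j => hxi (.inr j) (show i + 1 ≠ i by omega)
    have hx' : (fun g => x (.inl g)) ∈ piece A deg t :=
      mem_piece.2 fun g => mem_piece.1 hx (.inl g)
    obtain ⟨q, hq⟩ := gen t _ hx' (fun g hg => hxi (.inl g) hg)
      (funext fun h => by
        have h1 := ((extend_dA hz x).1 h).symm.trans (congrFun hd (.inl h))
        simp only [hr, mul_zero, Finset.sum_const_zero, add_zero] at h1
        exact h1)
      (by
        have h2 := (Fintype.sum_sum_type _).symm.trans ha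
        simpa [hr] using h2)
    have hq' := homogeneous_combination hzp hx' q hq
    refine ⟨Sum.elim 0 fun j => compInt A (n + 1) (t - τ j) (q j), mem_piece.2 ?_, ?_, funext ?_⟩
    · rintro (g | j)
      · exact Submodule.zero_mem _
      · exact compInt_mem _ _
    · rintro (g | j) hg
      · rfl
      · exact absurd (show i + 1 = i + 1 from rfl) hg
    · rintro (h | j)
      · rw [(extend_dA hz _).1 h]
        have := congrFun hq' h
        simp only [Finset.sum_apply, Pi.smul_apply, smul_eq_mul] at this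
        simp [← this, FreeCx.dA_apply, mul_comm]
      · rw [(extend_dA hz _).2 j, hr j]

end Vale.Agent.P202.Mixed.Slice
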