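import Vale.Agent.P202.Mixed.Slice.Graded

/-!
# P202 mixed characteristic: resolving the sections over a Noetherian ring, and reduction

Over a Noetherian ring the sections have augmented graded free complexes exact below any position;
modulo a generator of the maximal ideal of a domain these stay exact and cycles lift.
-/

noncomputable section

namespace Vale.Agent.P202.Mixed.Slice

open Finset Segre

universe v

variable {A : Type v} [CommRing A] {n : ℕ} {c : Fin n → ℤ}

/-- Augmented complexes exact below `L` exist. -/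
theorem exists_isPartial [IsNoetherianRing A] (hn : 1 ≤ n) (c : Fin n → ℤ) (L : ℕ) :
    ∃ (G : FreeCx (MvPolynomial (Fin (n + 1)) A)) (deg : G.ι → ℤ) (w : G.ι → Lau A n),
      IsPartial c G deg w L := by
  induction L with
  | zero =>
    obtain ⟨r, deg, β, hβ, hgen⟩ := exists_gens.{v} hn c
    let G : FreeCx (MvPolynomial (Fin (n + 1)) A) :=
      { ι := Fin r
        pos := fun _ => 0
        mat := 0
        mat_pos := fun h g hne => absurd rfl hne
        sq := Matrix.mul_zero _ }
    refine ⟨G, deg, fun g => AddMonoidAlgebra.single (β g) 1, ⟨fun h g => Submodule.zero_mem _,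
      fun g => single_mem_sec (hβ g) 1, fun g hg => absurd rfl hg, fun g => by simp [G],
      fun g => le_rfl, fun t x hx => ?_, fun t i hi => absurd hi (Nat.not_lt_zero i)⟩⟩
    obtain ⟨q, hq, rfl⟩ := hgen A t x hx
    exact ⟨q, mem_piece.2 hq, fun g hg => absurd rfl hg, rfl⟩
  | succ L ih =>
    obtain ⟨G, deg, w, hG⟩ := ih
    let S : Set (G.ι → MvPolynomial (Fin (n + 1)) A) :=
      {x | ∃ t, x ∈ piece A deg t ∧ (∀ g, G.pos g ≠ L → x g = 0) ∧
        G.dA (MvPolynomial (Fin (n + 1)) A) x = 0 ∧ ∑ g, aev A n (x g) * w g = 0}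
    obtain ⟨s, hs, hspan⟩ := (Submodule.fg_span_iff_fg_span_finset_subset
      (R := MvPolynomial (Fin (n + 1)) A) S).1 (IsNoetherian.noetherian _)
    let e := s.equivFin
    choose τ hp hsupp hcyc haug using fun j => hs (e.symm j).2
    refine ⟨_, _, _, hG.extend (r := s.card) (z := fun j => (e.symm j).1) (τ := τ)
      (fun j => ⟨hsupp j, hcyc j⟩) hp haug fun t x hx h1 h2 h3 => ?_⟩
    have hx' : x ∈ Submodule.span (MvPolynomial (Fin (n + 1)) A)
        (Set.range fun j => (e.symm j).1) := by
      have : Set.range (fun j => (e.symm j).1) = (s : Set _) := by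
        ext y
        exact ⟨fun ⟨j, hj⟩ => hj ▸ (e.symm j).2, fun hy => ⟨e ⟨y, hy⟩, by simp⟩⟩
      rw [this, ← hspan]
      exact Submodule.subset_span ⟨t, hx, h1, h2, h3⟩
    exact Submodule.mem_span_range_iff_exists_fun _ |>.1 hx'

/-! ### Reduction modulo a generator of the maximal ideal -/

section Reduce

variable {k₀ : Type v} [Field k₀] {φ : A →+* k₀} (hφ : Function.Surjective φ)
  {p : A} (hp : φ p = 0) (hker : ∀ a, φ a = 0 → p ∣ a)
  {G : FreeCx (MvPolynomial (Fin (n + 1)) A)} {deg : G.ι → ℤ} {w : G.ι → Lau A n} {L : ℕ}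

theorem map_dA (x : G.ι → MvPolynomial (Fin (n + 1)) A) (h : G.ι) :
    (G.map (MvPolynomial.map φ)).dA (MvPolynomial (Fin (n + 1)) k₀)
        (fun g => MvPolynomial.map φ (x g)) h =
      MvPolynomial.map φ (G.dA (MvPolynomial (Fin (n + 1)) A) x h) := by
  show ∑ g, MvPolynomial.map φ (G.mat h g) * MvPolynomial.map φ (x g) =
    MvPolynomial.map φ (∑ g, G.mat h g * x g)
  simp only [map_sum, map_mul]

theorem map_aug (x : G.ι → MvPolynomial (Fin (n + 1)) A) :
    ∑ g, aev k₀ n (MvPolynomial.map φ (x g)) * mapLau φ n (w g) =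
      mapLau φ n (∑ g, aev A n (x g) * w g) := by
  simp only [map_sum, map_mul, mapLau_aev]

variable [IsDomain A]

include hp hker hφ in
/-- Cycles modulo the maximal ideal lift to cycles. -/
theorem IsPartial.lift_cycle (hG : IsPartial c G deg w L) (t : ℤ) (i : ℕ) (hi : i ≤ L)
    (zb : G.ι → MvPolynomial (Fin (n + 1)) k₀) (hz : zb ∈ piece k₀ deg t)
    (hs : ∀ g, G.pos g ≠ i → zb g = 0)
    (hd : (G.map (MvPolynomial.map φ)).dA (MvPolynomial (Fin (n + 1)) k₀) zb = 0)
    (ha : ∑ g, aev k₀ n (zb g) * mapLau φ n (w g) = 0) :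
    ∃ z ∈ piece A deg t, (∀ g, G.pos g ≠ i → z g = 0) ∧
      G.dA (MvPolynomial (Fin (n + 1)) A) z = 0 ∧ (∑ g, aev A n (z g) * w g = 0) ∧
        (fun g => MvPolynomial.map φ (z g)) = zb := by
  classical
  choose x₀ hx₀ using fun g => MvPolynomial.map_surjective φ hφ (zb g)
  let x : G.ι → MvPolynomial (Fin (n + 1)) A := fun g =>
    if G.pos g = i then compInt A (n + 1) (t - deg g) (x₀ g) else 0
  have hxp : x ∈ piece A deg t := mem_piece.2 fun g => by
    simp only [x]
    split_ifs
    · exact compInt_mem _ _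
    · exact Submodule.zero_mem _
  have hxs : ∀ g, G.pos g ≠ i → x g = 0 := fun g hg => if_neg hg
  have hxm : (fun g => MvPolynomial.map φ (x g)) = zb := funext fun g => by
    simp only [x]
    split_ifs with h
    · rw [map_compInt, hx₀ g, compInt_eq_self (mem_piece.1 hz g)]
    · rw [map_zero, hs g h]
  have hdm : ∀ h, MvPolynomial.map φ (G.dA (MvPolynomial (Fin (n + 1)) A) x h) = 0 := fun h =>
    (map_dA x h).symm.trans ((congrArg (fun v : G.ι → MvPolynomial (Fin (n + 1)) k₀ =>
      (G.map (MvPolynomial.map φ)).dA (MvPolynomial (Fin (n + 1)) k₀) v h) hxm).trans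
        (congrFun hd h))
  by_cases hπ : p = 0
  · have hinj : ∀ a, φ a = 0 → a = 0 := fun a h => zero_dvd_iff.1 (hπ ▸ hker a h)
    have hinj' : Function.Injective φ := (injective_iff_map_eq_zero φ).2 hinj
    refine ⟨x, hxp, hxs, funext fun h => ?_, ?_, hxm⟩
    · refine MvPolynomial.map_injective φ hinj' ?_
      rw [hdm h, Pi.zero_apply, map_zero]
    · refine AddMonoidAlgebra.ext (Finsupp.ext fun α => hinj' ?_)
      rw [← coeff_mapLau, ← map_aug, show (fun g => aev k₀ n (MvPolynomial.map φ (x g)) *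
        mapLau φ n (w g)) = fun g => aev k₀ n (zb g) * mapLau φ n (w g) from
          funext fun g => by rw [← hxm], ha]
      simp
  have hdvd : ∀ g, MvPolynomial.C p ∣ G.dA (MvPolynomial (Fin (n + 1)) A) x g := fun g => by
    rw [MvPolynomial.C_dvd_iff_dvd_coeff]
    refine fun s => hker _ ?_
    rw [← MvPolynomial.coeff_map, hdm g, MvPolynomial.coeff_zero]
  choose y₀ hy₀ using hdvd
  let y : G.ι → MvPolynomial (Fin (n + 1)) A := fun g =>
    compInt A (n + 1) (t - deg g) (y₀ g)
  have hdx : ∀ g, G.dA (MvPolynomial (Fin (n + 1)) A) x g = MvPolynomial.C p * y g := by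
    intro g
    have hpc : G.dA (MvPolynomial (Fin (n + 1)) A) x g ∈ homInt A (n + 1) (t - deg g) := by
      rw [FreeCx.dA_apply]
      refine Submodule.sum_mem _ fun h _ => ?_
      rw [smul_eq_mul, show t - deg g = (deg h - deg g) + (t - deg h) by ring]
      exact homInt_mul (hG.homog g h) (mem_piece.1 hxp h)
    calc G.dA (MvPolynomial (Fin (n + 1)) A) x g
        = compInt A (n + 1) (t - deg g) (MvPolynomial.C p * y₀ g) := by
          rw [← hy₀ g, compInt_eq_self hpc]
      _ = MvPolynomial.C p * y g := by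
          rw [← MvPolynomial.smul_eq_C_mul, map_smul, MvPolynomial.smul_eq_C_mul]
  have hC : (MvPolynomial.C p : MvPolynomial (Fin (n + 1)) A) ≠ 0 :=
    fun h => hπ (MvPolynomial.C_eq_zero.1 h)
  rcases Nat.eq_zero_or_pos i with hi0 | hipos
  · subst hi0
    have hdx0 : G.dA (MvPolynomial (Fin (n + 1)) A) x = 0 := by
      funext h
      rw [FreeCx.dA_apply]
      refine Finset.sum_eq_zero fun g _ => ?_
      by_cases hm : G.mat h g = 0
      · rw [hm, zero_smul]
      · rw [hxs g (by have := G.mat_pos h g hm; omega), smul_zero]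
    set a := ∑ g, aev A n (x g) * w g with ha_def
    have hdiv : ∀ α, p ∣ a.coeff α := fun α => hker _ (by
      rw [← coeff_mapLau, ha_def, ← map_aug, show (fun g => aev k₀ n (MvPolynomial.map φ (x g)) *
        mapLau φ n (w g)) = fun g => aev k₀ n (zb g) * mapLau φ n (w g) from
          funext fun g => by rw [← hxm], ha]
      simp)
    choose b hb using hdiv
    let v : Lau A n := ∑ α ∈ a.coeff.support, AddMonoidAlgebra.single α (b α)
    have hav : a = p • v := by
      conv_lhs => rw [eq_sum_single a]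
      rw [Finset.smul_sum]
      refine Finset.sum_congr rfl fun α _ => ?_
      rw [AddMonoidAlgebra.smul_single, smul_eq_mul, hb α]
    have hv : v ∈ sec A c t := by
      refine Submodule.sum_mem _ fun α hα => single_mem_sec ?_ _
      have hmem : a ∈ sec A c t := Submodule.sum_mem _ fun g _ => by
        have := aev_mul_mem (mem_piece.1 hxp g) (hG.w_mem g)
        rwa [add_sub_cancel] at this
      exact hmem α (Finsupp.mem_support_iff.1 hα)
    obtain ⟨z', hz', hz's, hz'a⟩ := hG.surj t v hv
    refine ⟨x - p • z', Submodule.sub_mem _ hxp (Submodule.smul_mem _ _ hz'), fun g hg => ?_,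
      funext fun h => ?_, ?_, ?_⟩
    · simp [hxs g hg, hz's g hg]
    · rw [map_sub, hdx0, LinearMap.map_smul_of_tower, zero_sub, Pi.neg_apply, Pi.smul_apply,
        Pi.zero_apply, neg_eq_zero, FreeCx.dA_apply, Finset.sum_eq_zero, smul_zero]
      intro g _
      by_cases hm : G.mat h g = 0
      · rw [hm, zero_smul]
      · rw [hz's g (by have := G.mat_pos h g hm; omega), smul_zero]
    · simp only [Pi.sub_apply, Pi.smul_apply, map_sub, map_smul, sub_mul, smul_mul_assoc,
        Finset.sum_sub_distrib, ← Finset.smul_sum, hz'a, ← ha_def, hav, sub_self]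
    · rw [← hxm]
      funext g
      simp [MvPolynomial.smul_eq_C_mul, hp]
  · have hys : ∀ g, G.pos g ≠ i - 1 → y g = 0 := by
      intro g hg
      have h0 : G.dA (MvPolynomial (Fin (n + 1)) A) x g = 0 := by
        rw [FreeCx.dA_apply]
        refine Finset.sum_eq_zero fun h _ => ?_
        by_cases hm : G.mat g h = 0
        · rw [hm, zero_smul]
        · rw [hxs h (by have := G.mat_pos g h hm; omega), smul_zero]
      exact (mul_eq_zero.1 ((hdx g).symm.trans h0)).resolve_left hC
    have hdy : G.dA (MvPolynomial (Fin (n + 1)) A) y = 0 := by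
      funext h
      have h2 := congrFun (G.dA_dA _ x) h
      rw [FreeCx.dA_apply] at h2
      simp only [hdx, smul_eq_mul, mul_left_comm _ (MvPolynomial.C p), ← Finset.mul_sum,
        Pi.zero_apply] at h2
      rw [FreeCx.dA_apply]
      exact (mul_eq_zero.1 h2).resolve_left hC
    have hay : ∑ g, aev A n (y g) * w g = 0 := by
      have h2 : ∑ g, aev A n (G.dA (MvPolynomial (Fin (n + 1)) A) x g) * w g = 0 := by
        simp only [FreeCx.dA_apply, smul_eq_mul, map_sum, map_mul, Finset.sum_mul]
        rw [Finset.sum_comm]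
        refine Finset.sum_eq_zero fun g _ => ?_
        rw [Finset.sum_congr rfl fun h _ => mul_right_comm _ _ _, ← Finset.sum_mul, hG.aug_d g,
          zero_mul]
      simp only [hdx, map_mul, mul_assoc, ← Finset.mul_sum] at h2
      rw [aev, MvPolynomial.aeval_C, ← Algebra.smul_def] at h2
      refine AddMonoidAlgebra.ext (Finsupp.ext fun α => ?_)
      have h3 := congrArg (fun f : Lau A n => f.coeff α) h2
      simpa [hπ, aev] using h3
    obtain ⟨x', hx', hx's, hx'd⟩ := hG.exact t (i - 1) (by omega) y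
      (mem_piece.2 fun g => compInt_mem _ _) hys hdy hay
    rw [show i - 1 + 1 = i by omega] at hx's
    refine ⟨x - p • x', Submodule.sub_mem _ hxp (Submodule.smul_mem _ _ hx'), fun g hg => ?_,
      funext fun h => ?_, ?_, ?_⟩
    · simp [hxs g hg, hx's g hg]
    · rw [map_sub, LinearMap.map_smul_of_tower, hx'd, Pi.sub_apply, hdx, Pi.smul_apply,
        MvPolynomial.smul_eq_C_mul, sub_self, Pi.zero_apply]
    · refine Finset.sum_eq_zero fun g _ => ?_
      by_cases hg : G.pos g = i
      · rw [hG.w_zero g (by omega), mul_zero]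
      · simp [hxs g hg, hx's g hg]
    · rw [← hxm]
      funext g
      simp [MvPolynomial.smul_eq_C_mul, hp]

include hp hker hφ in
/-- The reduction is exact below `L`. -/
theorem IsPartial.exact_map (hG : IsPartial c G deg w L) (t : ℤ) (i : ℕ) (hi : i < L)
    (zb : G.ι → MvPolynomial (Fin (n + 1)) k₀) (hz : zb ∈ piece k₀ deg t)
    (hs : ∀ g, G.pos g ≠ i → zb g = 0)
    (hd : (G.map (MvPolynomial.map φ)).dA (MvPolynomial (Fin (n + 1)) k₀) zb = 0)
    (ha : ∑ g, aev k₀ n (zb g) * mapLau φ n (w g) = 0) :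
    ∃ yb ∈ piece k₀ deg t, (∀ g, G.pos g ≠ i + 1 → yb g = 0) ∧
      (G.map (MvPolynomial.map φ)).dA (MvPolynomial (Fin (n + 1)) k₀) yb = zb := by
  obtain ⟨z, h1, h2, h3, h4, h5⟩ := hG.lift_cycle hφ hp hker t i hi.le zb hz hs hd ha
  obtain ⟨y, hy, hys, hyd⟩ := hG.exact t i hi z h1 h2 h3 h4
  refine ⟨fun g => MvPolynomial.map φ (y g), mem_piece.2 fun g => map_mem_homInt φ
    (mem_piece.1 hy g), fun g hg => by show MvPolynomial.map φ (y g) = 0; rw [hys g hg, map_zero],
    funext fun h => ?_⟩
  exact (map_dA y h).trans ((congrArg _ (congrFun hyd h)).trans (congrFun h5 h))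

end Reduce

end Vale.Agent.P202.Mixed.Slice
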