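import Vale.Agent.P202.Mixed.Slice.Cech
import Vale.Agent.P202.Segre.Units

/-!
# P202 mixed characteristic: the sections as a module over the operators

Over any ring the sections in degree `t` are spanned by the monomials of a box, the operators act
through elementary symmetric elements, and the sections are generated in bounded degrees.
-/

noncomputable section

namespace Vale.Agent.P202.Mixed.Slice

open Finset Segre
open MvPolynomial (X)

universe v

/-! ### Homogeneous polynomials of integer degree -/

section HomInt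

variable {A : Type v} [CommRing A] {d : ℕ}

theorem mem_homInt_iff {e : ℤ} {q : MvPolynomial (Fin d) A} :
    q ∈ homInt A d e ↔ ∀ s, MvPolynomial.coeff s q ≠ 0 → ((Finsupp.degree s : ℕ) : ℤ) = e := by
  unfold homInt
  split_ifs with he
  · rw [MvPolynomial.mem_homogeneousSubmodule]
    constructor
    · intro h s hs
      have := h hs
      change Finsupp.weight (fun _ => 1) s = _ at this
      rw [← DFunLike.congr_fun Finsupp.degree_eq_weight_one s] at this
      omega
    · intro h s hs
      show Finsupp.weight (fun _ => 1) s = _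
      rw [← DFunLike.congr_fun Finsupp.degree_eq_weight_one s]
      have := h s hs
      omega
  · rw [Submodule.mem_bot]
    refine ⟨fun h => by simp [h], fun h => ?_⟩
    ext s
    by_contra hs
    have := h s (by simpa using hs)
    omega

theorem homInt_mul {e e' : ℤ} {q q' : MvPolynomial (Fin d) A} (h : q ∈ homInt A d e)
    (h' : q' ∈ homInt A d e') : q * q' ∈ homInt A d (e + e') := by
  classical
  rw [mem_homInt_iff] at h h' ⊢
  intro s hs
  rw [MvPolynomial.coeff_mul] at hs
  obtain ⟨p, hp, hne⟩ := Finset.exists_ne_zero_of_sum_ne_zero hs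
  have h1 := h p.1 fun h0 => hne (by rw [h0, zero_mul])
  have h2 := h' p.2 fun h0 => hne (by rw [h0, mul_zero])
  rw [← Finset.HasAntidiagonal.mem_antidiagonal.1 hp, map_add]
  omega

theorem X_mem_homInt (j : Fin d) : (X j : MvPolynomial (Fin d) A) ∈ homInt A d 1 := by
  classical
  rw [mem_homInt_iff]
  intro s hs
  rw [MvPolynomial.coeff_X] at hs
  split_ifs at hs with h
  · subst h; simp
  · exact absurd rfl hs

theorem C_mem_homInt (a : A) : (MvPolynomial.C a : MvPolynomial (Fin d) A) ∈ homInt A d 0 := by
  classical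
  rw [mem_homInt_iff]
  intro s hs
  rw [MvPolynomial.coeff_C] at hs
  split_ifs at hs with h
  · subst h; simp
  · exact absurd rfl hs

theorem one_mem_homInt : (1 : MvPolynomial (Fin d) A) ∈ homInt A d 0 := by
  simpa using C_mem_homInt (A := A) (d := d) 1

theorem map_mem_homInt {A' : Type*} [CommRing A'] (φ : A →+* A') {e : ℤ}
    {q : MvPolynomial (Fin d) A} (h : q ∈ homInt A d e) :
    MvPolynomial.map φ q ∈ homInt A' d e := by
  rw [mem_homInt_iff] at h ⊢
  intro s hs
  rw [MvPolynomial.coeff_map] at hs
  exact h s fun h0 => hs (by rw [h0, map_zero])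

theorem homInt_neg {e : ℤ} (he : e < 0) : homInt A d e = ⊥ := if_neg (not_le.2 he)

variable (A d) in
/-- The component in an integer degree. -/
def compInt (e : ℤ) : MvPolynomial (Fin d) A →ₗ[A] MvPolynomial (Fin d) A :=
  if 0 ≤ e then MvPolynomial.homogeneousComponent e.toNat else 0

theorem coeff_compInt (e : ℤ) (q : MvPolynomial (Fin d) A) (s : Fin d →₀ ℕ) :
    MvPolynomial.coeff s (compInt A d e q) =
      if ((Finsupp.degree s : ℕ) : ℤ) = e then MvPolynomial.coeff s q else 0 := by
  unfold compInt
  split_ifs with he h h <;> simp [MvPolynomial.coeff_homogeneousComponent] <;> omega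

theorem compInt_mem (e : ℤ) (q : MvPolynomial (Fin d) A) : compInt A d e q ∈ homInt A d e := by
  rw [mem_homInt_iff]
  intro s hs
  rw [coeff_compInt] at hs
  by_contra h
  exact hs (if_neg h)

theorem compInt_eq_self {e : ℤ} {q : MvPolynomial (Fin d) A} (h : q ∈ homInt A d e) :
    compInt A d e q = q := by
  refine MvPolynomial.ext _ _ fun s => ?_
  rw [coeff_compInt]
  split_ifs with hs
  · rfl
  · by_contra h0
    exact hs (mem_homInt_iff.1 h s (Ne.symm h0))

theorem compInt_mul {e e' : ℤ} (q : MvPolynomial (Fin d) A) {z : MvPolynomial (Fin d) A}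
    (hz : z ∈ homInt A d e') : compInt A d e (q * z) = compInt A d (e - e') q * z := by
  classical
  refine MvPolynomial.ext _ _ fun s => ?_
  rw [coeff_compInt, MvPolynomial.coeff_mul, MvPolynomial.coeff_mul]
  rw [show ∀ (P : Prop) [Decidable P] (f : (Fin d →₀ ℕ) × (Fin d →₀ ℕ) → A) (S : Finset _),
    (if P then ∑ x ∈ S, f x else 0) = ∑ x ∈ S, if P then f x else 0 from
      fun P _ f S => by split_ifs <;> simp]
  refine Finset.sum_congr rfl fun p hp => ?_
  rw [coeff_compInt, ite_mul, zero_mul]
  by_cases h0 : MvPolynomial.coeff p.2 z = 0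
  · simp [h0]
  · have := mem_homInt_iff.1 hz p.2 h0
    rw [← Finset.HasAntidiagonal.mem_antidiagonal.1 hp, map_add]
    push_cast
    exact if_congr (by omega) rfl rfl

end HomInt

/-! ### Sections -/

/-- Laurent polynomials in `n` variables. -/
abbrev Lau (A : Type v) [CommRing A] (n : ℕ) : Type v := AddMonoidAlgebra A (Fin n → ℤ)

variable (A : Type v) [CommRing A] {n : ℕ}

/-- The elementary symmetric element over any ring. -/
def esR (n j : ℕ) : Lau A n :=
  ∑ s ∈ (univ : Finset (Fin n)).powersetCard j, AddMonoidAlgebra.single (ind n s) 1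

theorem esR_eq_esym (k : Type v) [Field k] (n j : ℕ) : esR k n j = esym k n j := rfl

/-- The operators act through the elementary symmetric elements. -/
def aev (n : ℕ) : MvPolynomial (Fin (n + 1)) A →ₐ[A] Lau A n :=
  MvPolynomial.aeval fun j : Fin (n + 1) => esR A n j

/-- The sections in degree `t`. -/
def sec (c : Fin n → ℤ) (t : ℤ) : Submodule A (Lau A n) where
  carrier := {f | ∀ α, f.coeff α ≠ 0 → allowC c t α none}
  add_mem' := by
    intro f g hf hg α h
    by_cases h1 : f.coeff α = 0
    · exact hg α (by simpa [AddMonoidAlgebra.coeff_add, h1] using h)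
    · exact hf α h1
  zero_mem' := by
    intro α h
    simp at h
  smul_mem' := by
    intro r f hf α h
    exact hf α fun h0 => h (by simp [h0])

variable {A} {c : Fin n → ℤ}

theorem single_mem_sec {t : ℤ} {α : Fin n → ℤ} (h : allowC c t α none) (a : A) :
    AddMonoidAlgebra.single α a ∈ sec A c t := by
  intro β hb
  rw [AddMonoidAlgebra.coeff_single, Finsupp.single_apply] at hb
  split_ifs at hb with e
  · exact e ▸ h
  · exact absurd rfl hb

theorem eq_sum_single (f : Lau A n) :
    f = ∑ α ∈ f.coeff.support, AddMonoidAlgebra.single α (f.coeff α) :=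
  AddMonoidAlgebra.ext <| by
    rw [AddMonoidAlgebra.coeff_sum]
    simp only [AddMonoidAlgebra.coeff_single]
    exact (Finsupp.sum_single f.coeff).symm

/-- The monomials of the box in degree `t`. -/
def box (c : Fin n → ℤ) (t : ℤ) : Finset (Fin n → ℤ) :=
  Fintype.piFinset fun a => Finset.Icc 0 (t + (c a - 1))

theorem mem_box {t : ℤ} {α : Fin n → ℤ} : α ∈ box c t ↔ allowC c t α none := by
  simp [box, allowC, Fintype.mem_piFinset]

theorem sec_le_of_single {t : ℤ} (I : Submodule A (Lau A n))
    (h : ∀ α, allowC c t α none → ∀ a, AddMonoidAlgebra.single α a ∈ I) : sec A c t ≤ I := by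
  intro f hf
  rw [eq_sum_single f]
  exact I.sum_mem fun α hα => h α (hf α (Finsupp.mem_support_iff.1 hα)) _

theorem esR_mul_mem {t : ℤ} (j : ℕ) {f : Lau A n} (hf : f ∈ sec A c t) :
    esR A n j * f ∈ sec A c (t + 1) := by
  rw [esR, Finset.sum_mul]
  refine Submodule.sum_mem _ fun s _ => ?_
  refine sec_le_of_single
    ((sec A c (t + 1)).comap (LinearMap.mulLeft A (AddMonoidAlgebra.single (ind n s) (1 : A))))
    (fun α hα a => ?_) hf
  show AddMonoidAlgebra.single (ind n s) (1 : A) * AddMonoidAlgebra.single α a ∈ sec A c (t + 1)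
  rw [AddMonoidAlgebra.single_mul_single]
  refine single_mem_sec (fun b => ?_) _
  have := hα b
  simp only [Pi.add_apply, ind]
  split_ifs <;> omega

theorem aev_monomial_mul_mem (s : Fin (n + 1) →₀ ℕ) :
    ∀ (a : A) (t : ℤ), ∀ f ∈ sec A c t,
      aev A n (MvPolynomial.monomial s a) * f ∈ sec A c (t + ((Finsupp.degree s : ℕ) : ℤ)) := by
  induction s using Finsupp.induction with
  | zero =>
    intro a t f hf
    simp only [map_zero, Nat.cast_zero, add_zero]
    rw [show MvPolynomial.monomial (0 : Fin (n + 1) →₀ ℕ) a = MvPolynomial.C a from rfl, aev,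
      MvPolynomial.aeval_C, ← Algebra.smul_def]
    exact Submodule.smul_mem _ _ hf
  | single_add j b s _ _ ih =>
    intro a t f hf
    clear * - ih hf
    induction b generalizing t f with
    | zero => simpa using ih a t f hf
    | succ b ihb =>
      have e : MvPolynomial.monomial (Finsupp.single j (b + 1) + s) a =
          MvPolynomial.monomial (Finsupp.single j b + s) a * X j := by
        rw [MvPolynomial.X, MvPolynomial.monomial_mul, mul_one, add_right_comm,
          ← Finsupp.single_add]
      rw [e, map_mul, mul_assoc, show aev A n (X j) = esR A n j from MvPolynomial.aeval_X _ _]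
      have := ihb (t + 1) _ (esR_mul_mem (j : ℕ) hf)
      simp only [map_add, Finsupp.degree_single, Nat.cast_add, Nat.cast_one] at this ⊢
      rwa [show t + ((b : ℤ) + 1 + ((Finsupp.degree s : ℕ) : ℤ)) =
        t + 1 + ((b : ℤ) + ((Finsupp.degree s : ℕ) : ℤ)) by ring]

theorem aev_mul_mem {t e : ℤ} {q : MvPolynomial (Fin (n + 1)) A} (hq : q ∈ homInt A (n + 1) e)
    {f : Lau A n} (hf : f ∈ sec A c t) : aev A n q * f ∈ sec A c (t + e) := by
  rw [MvPolynomial.as_sum q, map_sum, Finset.sum_mul]
  refine Submodule.sum_mem _ fun s hs => ?_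
  rw [← mem_homInt_iff.1 hq s (MvPolynomial.mem_support_iff.1 hs)]
  exact aev_monomial_mul_mem s _ t f hf

/-- Above `gt₀` every monomial comes from one degree lower. -/
def gt₀ (c : Fin n → ℤ) : ℤ := (3 * n + 4 : ℕ) + ∑ a, |c a|

theorem exists_gap (α : Fin n → ℤ) :
    ∃ m ∈ Finset.Icc (1 : ℤ) (2 * n + 1), ∀ a, α a ≠ m ∧ α a ≠ m + 1 := by
  by_contra h
  push Not at h
  have hsub : Finset.Icc (1 : ℤ) (2 * n + 1) ⊆
      univ.image α ∪ univ.image (fun a => α a - 1) := by
    intro m hm
    obtain ⟨a, ha⟩ := h m hm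
    by_cases h1 : α a = m
    · exact Finset.mem_union_left _ (Finset.mem_image.2 ⟨a, Finset.mem_univ _, h1⟩)
    · exact Finset.mem_union_right _ (Finset.mem_image.2 ⟨a, Finset.mem_univ _, by
        have := ha h1; omega⟩)
  have h1 := (Finset.card_le_card hsub).trans (Finset.card_union_le _ _)
  have h2 := Finset.card_image_le (s := (univ : Finset (Fin n))) (f := α)
  have h3 := Finset.card_image_le (s := (univ : Finset (Fin n))) (f := fun a => α a - 1)
  simp only [Finset.card_univ, Fintype.card_fin, Int.card_Icc] at h1 h2 h3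
  omega

variable (A) in
/-- The operators applied to one degree, as a linear map. -/
def opsMap (n : ℕ) : (Fin (n + 1) → Lau A n) →ₗ[A] Lau A n :=
  ∑ j : Fin (n + 1), (LinearMap.mulLeft A (esR A n j)).comp (LinearMap.proj j)

theorem opsMap_apply (f : Fin (n + 1) → Lau A n) : opsMap A n f = ∑ j : Fin (n + 1), esR A n j * f j := by
  simp [opsMap]

/-- The sections above `gt₀` are spanned by the operators applied one degree lower. -/
theorem sec_succ {t : ℤ} (ht : gt₀ c ≤ t) {x : Lau A n} (hx : x ∈ sec A c (t + 1)) :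
    ∃ f : Fin (n + 1) → Lau A n, (∀ j, f j ∈ sec A c t) ∧ x = ∑ j : Fin (n + 1), esR A n j * f j := by
  set I := (Submodule.pi Set.univ fun _ : Fin (n + 1) => sec A c t).map (opsMap A n)
  suffices h : sec A c (t + 1) ≤ I by
    obtain ⟨f, hf, rfl⟩ := h hx
    exact ⟨f, fun j => hf j (Set.mem_univ j), opsMap_apply f⟩
  have hbig : ∀ a, ((3 * n + 4 : ℕ) : ℤ) ≤ t + c a := fun a => by
    have h1 : |c a| ≤ ∑ b, |c b| :=
      Finset.single_le_sum (f := fun b => |c b|) (fun b _ => abs_nonneg (c b)) (Finset.mem_univ a)
    have := neg_abs_le (c a)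
    simp only [gt₀] at ht
    omega
  refine sec_le_of_single I fun α hα a => ?_
  suffices h : ∀ (N : ℕ) (α : Fin n → ℤ), allowC c (t + 1) α none → ∑ b, α b * α b ≤ (N : ℤ) →
      AddMonoidAlgebra.single α a ∈ I from h (∑ b, α b * α b).toNat α hα (Int.self_le_toNat _)
  intro N
  induction N using Nat.strong_induction_on with
  | _ N ih =>
    intro α hα hN
    obtain ⟨m, hm, hgap⟩ := exists_gap α
    rw [Finset.mem_Icc] at hm
    set s := univ.filter fun b => m < α b with hs
    set β := α - ind n s with hβ
    have hβm : allowC c t β none := fun b => by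
      have := hα b
      have := hgap b
      have := hbig b
      simp only [hβ, hs, Pi.sub_apply, ind, Finset.mem_filter, Finset.mem_univ, true_and]
      push_cast at *
      split_ifs <;> omega
    have hj : s.card < n + 1 := by
      have := Finset.card_le_univ s
      simp at this
      omega
    have hmem : esR A n s.card * AddMonoidAlgebra.single β a ∈ I := by
      refine ⟨Pi.single ⟨s.card, hj⟩ (AddMonoidAlgebra.single β a), fun j _ => ?_, ?_⟩
      · by_cases e : j = ⟨s.card, hj⟩
        · subst e; simpa using single_mem_sec hβm a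
        · simp [Pi.single_eq_of_ne e]
      · rw [opsMap_apply, Finset.sum_eq_single ⟨s.card, hj⟩]
        · simp
        · intro j _ e; simp [Pi.single_eq_of_ne e]
        · simp
    have hother : ∀ s' ∈ ((univ : Finset (Fin n)).powersetCard s.card).erase s,
        AddMonoidAlgebra.single (ind n s' + β) a ∈ I := by
      intro s' hs'
      obtain ⟨hne, hs'⟩ := Finset.mem_erase.1 hs'
      have hcard := (Finset.mem_powersetCard.1 hs').2
      have hal : allowC c (t + 1) (ind n s' + β) none := fun b => by
        have := hβm b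
        simp only [Pi.add_apply, ind]
        split_ifs <;> omega
      have hlt : ∑ b, (ind n s' + β) b * (ind n s' + β) b < ∑ b, α b * α b := by
        have key : ∀ b, (ind n s' + β) b * (ind n s' + β) b + (ind n s' b - ind n s b) ^ 2 ≤
            α b * α b + 2 * m * (ind n s' b - ind n s b) := by
          intro b
          have h1 : m < α b → m + 2 ≤ α b := fun h => by have := hgap b; omega
          have h2 : ¬ m < α b → α b ≤ m - 1 := fun h => by have := hgap b; omega
          simp only [hβ, hs, Pi.add_apply, Pi.sub_apply, ind, Finset.mem_filter, Finset.mem_univ,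
            true_and]
          split_ifs with h3 h4 <;>
            first | nlinarith [h1 (by assumption)] | nlinarith [h2 (by assumption)]
        have hsum := Finset.sum_le_sum (s := univ) fun b _ => key b
        have hzero : ∑ b, (ind n s' b - ind n s b) = 0 := by
          simp only [ind, Finset.sum_sub_distrib, Finset.sum_ite_mem, Finset.univ_inter,
            Finset.sum_const, hcard, sub_self]
        have hpos : 1 ≤ ∑ b, (ind n s' b - ind n s b) ^ 2 := by
          obtain ⟨b, hb1, hb2⟩ := Finset.not_subset.1 fun h : s' ⊆ s =>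
            hne (Finset.eq_of_subset_of_card_le h hcard.ge)
          refine le_trans ?_ (Finset.single_le_sum
            (f := fun b => (ind n s' b - ind n s b) ^ 2) (fun b _ => sq_nonneg _)
            (Finset.mem_univ b))
          simp [ind, hb1, hb2]
        rw [Finset.sum_add_distrib, Finset.sum_add_distrib, ← Finset.mul_sum, hzero] at hsum
        linarith
      have hnn : 0 ≤ ∑ b, (ind n s' + β) b * (ind n s' + β) b :=
        Finset.sum_nonneg fun b _ => mul_self_nonneg _
      exact ih _ (by omega) _ hal (Int.self_le_toNat _)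
    have hα' : AddMonoidAlgebra.single α a = esR A n s.card * AddMonoidAlgebra.single β a -
        ∑ s' ∈ ((univ : Finset (Fin n)).powersetCard s.card).erase s,
          AddMonoidAlgebra.single (ind n s' + β) a := by
      rw [eq_sub_iff_add_eq, esR, Finset.sum_mul]
      simp only [AddMonoidAlgebra.single_mul_single, one_mul]
      conv_rhs => rw [← Finset.add_sum_erase _ _
        (Finset.mem_powersetCard.2 ⟨Finset.subset_univ s, rfl⟩)]
      rw [show ind n s + β = α by simp [hβ]]
    rw [hα']
    exact I.sub_mem hmem (I.sum_mem hother)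

/-- Monomials generating the sections. -/
theorem exists_gens (hn : 1 ≤ n) (c : Fin n → ℤ) :
    ∃ (r : ℕ) (deg : Fin r → ℤ) (β : Fin r → Fin n → ℤ),
      (∀ g, allowC c (deg g) (β g) none) ∧
      ∀ (A : Type v) [CommRing A] (t : ℤ), ∀ x ∈ sec A c t,
        ∃ q : Fin r → MvPolynomial (Fin (n + 1)) A, (∀ g, q g ∈ homInt A (n + 1) (t - deg g)) ∧
          x = ∑ g, aev A n (q g) * AddMonoidAlgebra.single (β g) 1 := by
  classical
  let G := (Finset.Icc (1 - c ⟨0, hn⟩) (gt₀ c)).sigma fun t => box c t
  let e := G.equivFin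
  refine ⟨G.card, fun g => (e.symm g).1.1, fun g => (e.symm g).1.2, fun g => ?_, ?_⟩
  · exact mem_box.1 (Finset.mem_sigma.1 (e.symm g).2).2
  intro A _ t x hx
  let Φ : (Fin G.card → MvPolynomial (Fin (n + 1)) A) →ₗ[A] Lau A n :=
    ∑ g, ((LinearMap.mulRight A (AddMonoidAlgebra.single (e.symm g).1.2 (1 : A))).comp
      ((aev A n).toLinearMap.comp (LinearMap.proj g)))
  have hΦ : ∀ q, Φ q = ∑ g, aev A n (q g) * AddMonoidAlgebra.single (e.symm g).1.2 1 :=
    fun q => by simp [Φ]
  let P : ℤ → Submodule A (Lau A n) := fun t =>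
    (Submodule.pi Set.univ fun g => homInt A (n + 1) (t - (e.symm g).1.1)).map Φ
  suffices h : sec A c t ≤ P t by
    obtain ⟨q, hq, rfl⟩ := h hx
    exact ⟨q, fun g => hq g (Set.mem_univ g), hΦ q⟩
  have low : ∀ t, t ≤ gt₀ c → sec A c t ≤ P t := by
    intro t ht
    refine sec_le_of_single _ fun α hα a => ?_
    have hmem : (⟨t, α⟩ : Σ _ : ℤ, Fin n → ℤ) ∈ G := by
      have := hα ⟨0, hn⟩
      exact Finset.mem_sigma.2 ⟨Finset.mem_Icc.2 ⟨by dsimp only; omega, ht⟩, mem_box.2 hα⟩
    refine ⟨Pi.single (e ⟨_, hmem⟩) (MvPolynomial.C a), fun g _ => ?_, ?_⟩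
    · by_cases hg : g = e ⟨_, hmem⟩
      · subst hg
        simpa using C_mem_homInt a
      · simp [Pi.single_eq_of_ne hg]
    · rw [hΦ, Finset.sum_eq_single (e ⟨_, hmem⟩)]
      · rw [Pi.single_eq_same, Equiv.symm_apply_apply, aev, MvPolynomial.aeval_C]
        rw [← Algebra.smul_def, AddMonoidAlgebra.smul_single, smul_eq_mul, mul_one]
      · intro g _ hg; simp [Pi.single_eq_of_ne hg]
      · simp
  rcases le_or_gt t (gt₀ c) with ht | ht
  · exact low t ht
  obtain ⟨i, rfl⟩ := Int.le.dest ht.le
  clear ht x hx
  induction i with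
  | zero => simpa using low _ le_rfl
  | succ i ih =>
    intro x hx
    rw [show gt₀ c + ((i + 1 : ℕ) : ℤ) = gt₀ c + i + 1 by push_cast; ring] at hx ⊢
    obtain ⟨f, hf, rfl⟩ := sec_succ (by omega) hx
    refine Submodule.sum_mem _ fun j _ => ?_
    obtain ⟨q, hq, hqf⟩ := ih (hf j)
    refine ⟨fun g => X j * q g, fun g _ => ?_, ?_⟩
    · show X j * q g ∈ homInt A (n + 1) _
      rw [show gt₀ c + i + 1 - (e.symm g).1.1 = 1 + (gt₀ c + i - (e.symm g).1.1) by ring]
      exact homInt_mul (X_mem_homInt j) (hq g (Set.mem_univ g))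
    · rw [← hqf, hΦ, hΦ, Finset.mul_sum]
      refine Finset.sum_congr rfl fun g _ => ?_
      rw [map_mul, mul_assoc, show aev A n (X j) = esR A n j from MvPolynomial.aeval_X _ _]

end Vale.Agent.P202.Mixed.Slice
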